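import Mathlib
import Vale.Agent.P256.SExK
import Vale.Agent.P256.SChg

/-! P256: the explicit state in the chart is `Good`. -/

namespace Vale.Agent.P256

theorem pt_psiZ : ∀ a a' b b' : Fin 8,
    ∑ s, psiZ s a b * psiZ s a' b' = ∑ s, psiZ s a' b * psiZ s a b' := by
  simp only [psiZ_eqA]
  decide +kernel

theorem pt_psiB : PT psiB := fun a a' b b' => by
  simp only [psiB]
  exact_mod_cast pt_psiZ a a' b b'

def chAZ (a : Option (Fin 7)) (i : Fin 8) : ℤ :=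
  match a with
  | none => if i = 0 ∨ i = 2 ∨ i = 3 then 1 else 0
  | some k => if i = k.succ then 1 else 0

def chBZ (b : Option (Fin 7)) (j : Fin 8) : ℤ :=
  match b with
  | none => if j = 0 ∨ j = 2 then 1 else 0
  | some k => if j = k.succ then 1 else 0

def chAI (i : Fin 8) (a : Option (Fin 7)) : ℤ :=
  match a with
  | none => if i = 0 then 1 else 0
  | some k => if i = k.succ then 1 else if i = 0 ∧ (k = 1 ∨ k = 2) then -1 else 0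

def chBI (j : Fin 8) (b : Option (Fin 7)) : ℤ :=
  match b with
  | none => if j = 0 then 1 else 0
  | some k => if j = k.succ then 1 else if j = 0 ∧ k = 1 then -1 else 0

theorem chA_eq (a : Option (Fin 7)) (i : Fin 8) : chA a i = chAZ a i := by
  cases a <;> simp only [chA, chAZ, Matrix.of_apply] <;> split_ifs <;> simp

theorem chB_eq (a : Option (Fin 7)) (i : Fin 8) : chB a i = chBZ a i := by
  cases a <;> simp only [chB, chBZ, Matrix.of_apply] <;> split_ifs <;> simp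

theorem inv_of_int {A B : Type} [Fintype B] [DecidableEq A] (G : Matrix A B ℝ) (H : Matrix B A ℝ)
    (g : A → B → ℤ) (h : B → A → ℤ) (hg : ∀ a b, G a b = g a b) (hh : ∀ b a, H b a = h b a)
    (e : ∀ a a', ∑ b, g a b * h b a' = if a = a' then 1 else 0) : G * H = 1 := by
  ext a a'
  simp only [Matrix.mul_apply, hg, hh, Matrix.one_apply]
  have := congrArg (Int.cast : ℤ → ℝ) (e a a')
  push_cast at this
  exact this

def vZ (l : Ix (Fin 7) (Fin 7)) (s : Fin 16) : ℤ :=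
  match l with
  | none => ∑ i, ∑ j, chAZ none i * chBZ none j * psiZ s i j
  | some (Sum.inl k) => ∑ i, ∑ j, chAZ (some k) i * chBZ none j * psiZ s i j
  | some (Sum.inr k) => ∑ i, ∑ j, chAZ none i * chBZ (some k) j * psiZ s i j

def wL : List (List ℤ) :=
  [[0, 0, 0, 0, 0, 0, 0, 0, 0, 0, 0, 0, 0, 0, 0],
    [4, 0, -4, -4, 0, 0, 0, 0, -4, -4, -4, 0, 0, 0, 0],
    [0, 0, 4, 0, 0, 0, 0, 0, 4, 0, 4, 0, 0, 0, 0],
    [0, 0, 0, 0, 0, 0, 0, 0, 0, -4, -4, 0, 0, 0, 0],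
    [0, 0, 0, 0, 0, 0, 0, 0, 4, 4, 4, 0, 0, 0, 0],
    [0, 0, 0, 4, 0, 0, 0, 0, 0, 0, 0, 0, 0, 0, 0],
    [0, -4, 0, 0, 0, 0, 0, 0, 0, -4, -4, 0, 0, 0, 0],
    [0, 0, 0, 0, 0, 0, 0, 0, 4, 0, 4, 0, 0, 0, 0],
    [0, 0, 0, 0, -1, 0, 1, 3, 0, 0, 0, 1, 2, 1, 2],
    [0, 0, 0, 0, 2, 0, -2, 2, 0, 0, 0, 2, 0, -2, 0],
    [0, 0, 0, 0, 1, 0, -1, 1, 0, 0, 0, -1, 2, -1, 2],
    [0, 0, 0, 0, 1, -4, -1, 1, 0, 0, 0, 3, 2, -1, -2],
    [0, 0, 0, 0, 2, 0, 2, -2, 0, 0, 0, -2, 0, 2, 0],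
    [0, 0, 0, 0, -1, 0, 1, -1, 0, 0, 0, 1, 2, 1, 2],
    [0, 0, 0, 0, -1, 0, 1, -1, 0, 0, 0, -3, -2, 1, 2],
    [0, 0, 0, 0, -1, 0, -3, -1, 0, 0, 0, 1, -2, 1, -2]]

def wZ (s : Fin 16) (l : Ix (Fin 7) (Fin 7)) : ℤ :=
  (wL.getD s.val []).getD
    (match l with
      | none => 0
      | some (Sum.inl k) => 1 + k.val
      | some (Sum.inr k) => 8 + k.val) 0

def vL : List (List ℤ) :=
  [[1, 1, 1, 0, 1, 1, 0, -1, 0, 0, 0, 0, 0, 0, 0, 0],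
    [0, 0, 0, 1, 0, 0, -1, 0, 0, 0, 0, 0, 0, 0, 0, 0],
    [0, 0, 1, 0, 0, 0, 0, -1, 0, 0, 0, 0, 0, 0, 0, 0],
    [1, 0, 0, 0, 0, 1, 0, 0, 0, 0, 0, 0, 0, 0, 0, 0],
    [0, 0, 0, 0, 0, 0, 0, 0, 0, 1, 0, 0, 1, 0, 0, 0],
    [0, 0, 0, 0, 0, 0, 0, 0, 0, 0, 0, -1, 0, 0, -1, 0],
    [0, 0, 0, 0, 0, 0, 0, 0, 0, 0, -1, 0, 0, 0, 0, -1],
    [0, 0, 0, 0, 0, 0, 0, 0, 1, 0, 0, 0, 0, -1, 0, 0],
    [1, 0, 0, 1, 1, 0, 0, 0, 0, 0, 0, 0, 0, 0, 0, 0],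
    [1, 0, 0, 0, 1, 0, 0, -1, 0, 0, 0, 0, 0, 0, 0, 0],
    [0, 0, 0, -1, -1, 0, 0, 1, 0, 0, 0, 0, 0, 0, 0, 0],
    [0, 0, 0, 0, 0, 0, 0, 0, 0, 1, -1, 0, 0, 1, 0, 0],
    [0, 0, 0, 0, 0, 0, 0, 0, 0, -1, 1, 0, 0, 0, -1, 0],
    [0, 0, 0, 0, 0, 0, 0, 0, 1, 0, 0, 0, 1, 0, 0, 1],
    [0, 0, 0, 0, 0, 0, 0, 0, 0, 1, 0, 0, 0, 1, 1, 0]]

def vT (l : Ix (Fin 7) (Fin 7)) (s : Fin 16) : ℤ :=
  (vL.getD (match l with
      | none => 0
      | some (Sum.inl k) => 1 + k.val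
      | some (Sum.inr k) => 8 + k.val) []).getD s.val 0

theorem vZ_eq : ∀ l s, vZ l s = vT l s := by
  simp only [vZ, psiZ_eqA]
  decide +kernel

theorem vT_inv : ∀ l l', ∑ s, vT l s * wZ s l' = if l = l' then 4 else 0 := by
  decide +kernel

theorem Vv_eq (l : Ix (Fin 7) (Fin 7)) (s : Fin 16) : Vv (chg chA chB psiB) l s = vT l s := by
  rw [← vZ_eq]
  rcases l with _ | k | k <;> simp only [Vv, chg, vZ, chA_eq, chB_eq, psiB] <;> push_cast <;> rfl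

theorem good_ex : Good (chg chA chB psiB) := by
  have a1 : chA * Matrix.of (fun i a => (chAI i a : ℝ)) = 1 :=
    inv_of_int _ _ chAZ chAI chA_eq (fun _ _ => rfl) (by decide +kernel)
  have a2 : Matrix.of (fun i a => (chAI i a : ℝ)) * chA = 1 :=
    inv_of_int _ _ chAI chAZ (fun _ _ => rfl) chA_eq (by decide +kernel)
  have b1 : chB * Matrix.of (fun i a => (chBI i a : ℝ)) = 1 :=
    inv_of_int _ _ chBZ chBI chB_eq (fun _ _ => rfl) (by decide +kernel)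
  have b2 : Matrix.of (fun i a => (chBI i a : ℝ)) * chB = 1 :=
    inv_of_int _ _ chBI chBZ (fun _ _ => rfl) chB_eq (by decide +kernel)
  refine ⟨pt_psiB.chg _ _, k1_psiB.chg _ _ a1 a2 _ _ b1 b2, k2_psiB.chg _ _ a1 a2 _ _ b1 b2,
    ?_, ?_, fun c hc => funext fun l' => ?_⟩
  · exact (sw_chg psiB chA chB).symm ▸ k1_sw_psiB.chg _ _ b1 b2 _ _ a1 a2
  · exact (sw_chg psiB chA chB).symm ▸ k2_sw_psiB.chg _ _ b1 b2 _ _ a1 a2
  · have h1 : ∑ s, (∑ l, c l * Vv (chg chA chB psiB) l s) * (wZ s l' : ℝ) = 0 := by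
      simp only [hc, zero_mul, Finset.sum_const_zero]
    have h2 : ∀ l, ∑ s, (vT l s : ℝ) * (wZ s l' : ℝ) = if l = l' then 4 else 0 := fun l => by
      have := congrArg (Int.cast : ℤ → ℝ) (vT_inv l l')
      push_cast at this
      exact this
    simp only [Finset.sum_mul, Vv_eq, mul_assoc] at h1
    rw [Finset.sum_comm] at h1
    simp only [← Finset.mul_sum, h2, mul_ite, mul_zero, Finset.sum_ite_eq', Finset.mem_univ,
      if_true] at h1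
    simp only [Pi.zero_apply]
    linarith

end Vale.Agent.P256
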