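import Mathlib
import Vale.Agent.P256.SDefs

/-! P256: the explicit state on `ℝ^8 ⊗ ℝ^8` of rank 16, graded by `(ℤ/2)^4`. -/

namespace Vale.Agent.P256

def gA : Fin 8 → ℕ := ![0, 2, 3, 4, 8, 10, 11, 12]

def gB : Fin 8 → ℕ := ![1, 0, 4, 7, 9, 10, 12, 13]

def lamT : Fin 8 → Fin 8 → ℤ :=
  ![![1, 1, 1, 1, 1, 1, 1, 1],
    ![1, 1, -1, -1, 1, -1, 1, 1],
    ![1, 1, -1, -1, -1, -1, 1, 1],
    ![1, 1, 1, -1, 1, -1, 1, 1],
    ![1, 1, 1, -1, 1, -1, 1, 1],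
    ![-1, 1, -1, 1, -1, 1, 1, 1],
    ![-1, 1, -1, 1, 1, -1, 1, 1],
    ![-1, 1, 1, 1, -1, 1, 1, -1]]

def psiZ (s : Fin 16) (i j : Fin 8) : ℤ := if Nat.xor (gA i) (gB j) = s.val then lamT i j else 0

def psiB : Fin 16 → Fin 8 → Fin 8 → ℝ := fun s i j => (psiZ s i j : ℝ)

/-- Chart on the first factor: `none ↦ e 0 + e 2 + e 3`, `some i ↦ e (i+1)`. -/
def chA : Matrix (Option (Fin 7)) (Fin 8) ℝ := Matrix.of fun a i =>
  match a with
  | none => if i = 0 ∨ i = 2 ∨ i = 3 then 1 else 0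
  | some k => if i = k.succ then 1 else 0

/-- Chart on the second factor: `none ↦ e 0 + e 2`, `some j ↦ e (j+1)`. -/
def chB : Matrix (Option (Fin 7)) (Fin 8) ℝ := Matrix.of fun b j =>
  match b with
  | none => if j = 0 ∨ j = 2 then 1 else 0
  | some k => if j = k.succ then 1 else 0

end Vale.Agent.P256
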