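import Mathlib
import Vale.Agent.P256.SExC

/-! P256: certificates. -/

namespace Vale.Agent.P256

def clA (i j : Fin 8) : Fin 16 := f16 (7416732589846659879858287796946550735644314011390961907703707580640101233665 >>> (4 * (8 * i.val + j.val)))

def lamA (i j : Fin 8) : ℤ := if (10458788971855752192 >>> (8 * i.val + j.val)) % 2 = 1 then -1 else 1

def ylA : List (List (ℕ × ℤ)) :=
    [[(19, 2)], [(18, 2)], [(22, -2)], [(21, -2)], [(27, 2)], [(24, -2)], [(30, 2)], [(31, 2)],
    [(17, -2)], [(16, -2)], [(20, -2)], [(23, -2)], [(25, -2)], [(26, -2)], [(28, -2)], [(29,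
    -2)], [(33, -2)], [(32, -2)], [(166, 2)], [(165, 2)], [(171, -2)], [(168, 2)], [(44, -2)],
    [(45, -2)], [(49, -2)], [(178, -2)], [(182, 2)], [(55, -2)], [(187, -2)], [(58, -2)], [(60,
    -2)], [(191, -2)], [(195, -2)], [(64, -2)], [(198, 2)], [(71, -2)], [(203, -2)], [(74, -2)],
    [(206, -2)], [(77, -2)], [(81, -2)], [(210, -2)], [(84, -2)], [(213, 2)], [(89, -2)], [(216,
    2)], [(92, -2)], [(223, -2)], [(227, -2)], [(96, -2)], [(100, -2)], [(229, 2)], [(105, -2)],
    [(232, 2)], [(238, -2)], [(109, -2)], [(243, -2)], [(242, -2)], [(116, -2)], [(119, -2)],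
    [(121, -2)], [(122, -2)], [(254, -2)], [(255, -2)]]

def xA01 : List (List (ℕ × ℤ)) :=
    [[], [], [], [], [], [], [], [], [], [], [], [], [], [], [], []]

def xA02 : List (List (ℕ × ℤ)) :=
    [[], [], [(353, 1), (418, -1), (648, -2), (866, -1), (929, 1), (1233, 1), (2897, 1), (3481,
    -1), (3994, 1)], [(136, -2), (354, 1), (865, -1), (2321, 1), (2961, -1), (3417, 1), (3482,
    1), (3930, -1), (3993, -1)], [(200, -2), (355, 2), (720, 2), (1889, 2), (2329, 2), (2906,
    -2), (3409, 2)], [(208, 1), (1376, -1), (1450, -1), (1890, -1), (1960, -1), (2456, 1), (2970,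
    1), (3856, 1)], [(1378, 1), (1888, 1), (2328, 1), (2458, 1), (2842, 1), (2968, 1), (3408, 1),
    (3984, 1)], [(1377, -2), (1442, 2), (1961, -2), (3472, 2), (3857, 2), (3976, -2), (4012,
    -2)], [(784, 1), (1432, -1), (1946, -1), (2400, -1), (2474, 1), (2914, -1), (2984, 1), (3280,
    1)], [(337, 2), (1305, 2), (1882, -2), (2913, 2), (3272, -2), (3427, 2), (3792, 2)], [(400,
    -2), (785, 2), (904, 2), (940, 2), (2401, -2), (2466, -2), (2985, 2)], [(336, -1), (912, 1),
    (1304, -1), (1434, 1), (1818, -1), (1944, 1), (2402, -1), (2912, -1)], [], [], [(345, 1),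
    (410, -1), (858, -1), (921, 1), (1937, 2), (3208, -2), (3426, 1), (3489, 1), (3937, -1),
    (4002, -1)], [(409, 1), (922, -1), (1873, 1), (2257, 1), (3425, 1), (3490, 1), (3720, -2),
    (3938, -1), (4001, -1)]]

def xA03 : List (List (ℕ × ℤ)) :=
    [[(1001, 2), (1377, 2), (1507, 2), (2841, 2), (3016, 2), (3052, 2), (3544, 2)], [], [(208,
    -1), (867, 1), (1000, -1), (1376, -1), (1515, 1), (2512, -1), (2840, -1), (4058, -1)], [(200,
    -2), (355, 1), (1889, 1), (2329, 1), (2906, -1), (3025, -1), (3409, 1), (3546, 1), (4057,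
    -1)], [(136, -2), (354, 2), (865, -2), (1744, 2), (2321, 2), (3417, 2), (3930, -2)], [(353,
    1), (483, 1), (1233, -1), (1736, 2), (1891, 1), (2017, 1), (3034, -1), (3537, 1), (3929,
    -1)], [(864, -1), (1379, 1), (2320, 1), (2522, 1), (3032, 1), (3416, 1), (3866, 1), (4048,
    1)], [], [(465, -1), (857, -1), (2010, 1), (2257, -1), (2760, 2), (2915, 1), (3041, -1),
    (3425, 1), (3555, -1)], [(345, 2), (858, -2), (1297, 2), (2768, 2), (3208, -2), (3426, 2),
    (3937, -2)], [], [(794, -1), (976, 1), (1296, -1), (1498, 1), (2008, 2), (2403, -1), (2536,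
    -1), (3936, 1), (4075, 1)], [], [(472, -2), (1817, 2), (1992, -2), (2028, -2), (2401, 2),
    (2531, -2), (4073, -2)], [(337, 1), (474, -1), (985, 1), (1305, 1), (1882, -1), (2001, 1),
    (2913, 1), (3272, -2), (3427, 1)], [(986, 1), (1488, 1), (1816, -1), (2400, -1), (2539, -1),
    (3280, -1), (3939, 1), (4072, 1)]]

def xA04 : List (List (ℕ × ℤ)) :=
    [[], [(904, -2), (940, -2), (2401, 2), (2976, -2), (2985, -2)], [(272, -1), (337, 1), (776,
    -1), (1305, 1), (1882, -1), (2001, 1), (2913, 1), (3272, -1), (3427, 1), (3553, 1), (3792,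
    1), (4066, -1)], [(264, -1), (401, -1), (1488, 1), (1524, -1), (2400, -1), (2474, 1), (2696,
    -1), (2914, -1), (2977, -1), (2984, 1), (3554, 1), (3568, 1)], [(792, -2), (857, -2), (2760,
    2), (2915, 2), (3425, 2)], [(977, 1), (1013, 1), (1360, 1), (1800, 1), (2528, -1), (2537, 1),
    (3042, -1), (3056, -1), (3208, -1), (3426, 1), (3496, -1), (3937, -1)], [(464, 1), (1288, 1),
    (1425, 1), (1809, -1), (1872, 1), (1928, -1), (1964, -1), (2530, 1), (3040, 1), (3424, 1),
    (3498, -1), (4000, -1)], [], [(136, -1), (354, 1), (865, -1), (930, 1), (1744, 1), (1955, 1),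
    (2824, 1), (2961, -1), (3352, -1), (3417, 1), (3930, -1), (3993, -1)], [(353, 2), (1736, 2),
    (1891, 2), (3864, -2), (3929, -2)], [], [(352, -1), (491, 1), (1232, -1), (1506, 1), (2312,
    -1), (2521, -1), (3354, 1), (3536, 1), (3865, -1), (3928, 1), (4040, -1), (4076, -1)], [(992,
    2), (1001, 2), (1377, 2), (3016, 2), (3052, 2)], [], [(482, -1), (993, 1), (1000, -1), (1376,
    -1), (1515, 1), (1672, -1), (1890, -1), (2512, -1), (2905, 1), (3336, -1), (3545, -1), (3921,
    1)], [(481, 1), (931, 1), (1008, -1), (1440, -1), (1449, 1), (1889, 1), (2329, -1), (2504,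
    1), (2540, -1), (2969, -1), (3061, 1), (3848, -1)]]

def xA05 : List (List (ℕ × ℤ)) :=
    [[(1305, -2), (1368, -2), (2913, -2), (3272, 2), (3427, -2)], [], [(336, 1), (840, -1),
    (1304, 1), (1369, -1), (1818, 1), (1944, -1), (2184, -1), (2402, 1), (2472, 1), (2912, 1),
    (3793, 1), (4011, -1)], [(328, -1), (400, -1), (785, 1), (848, -1), (904, 1), (940, 1),
    (1489, -1), (1525, -1), (2401, -1), (2466, -1), (3562, 1), (3569, -1)], [], [(344, -1), (456,
    1), (492, -1), (920, -1), (1012, -1), (1864, 1), (2536, 1), (2987, -1), (3057, -1), (3488,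
    1), (3497, -1), (3936, -1)], [(346, -1), (465, -1), (1352, 1), (1496, -1), (2257, -1), (2538,
    1), (2760, 1), (2915, 1), (3041, -1), (3048, 1), (3425, 1), (3555, -1)], [(1297, 2), (1360,
    2), (3208, -2), (3426, 2), (3937, -2)], [(864, -1), (938, 1), (1224, -1), (1379, 1), (1745,
    1), (1963, 1), (2320, 1), (2385, -1), (2888, 1), (2960, 1), (3866, 1), (3992, 1)], [], [(136,
    -2), (354, 2), (865, -2), (2321, 2), (2384, 2)], [(353, -1), (483, -1), (1451, -1), (1521,
    1), (1736, -1), (1891, -1), (2017, -1), (2024, 1), (2376, -1), (2520, -1), (3481, 1), (3573,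
    1)], [], [(200, 2), (355, -2), (1889, -2), (2329, -2), (2392, -2)], [(490, -1), (1001, 1),
    (1377, -1), (1442, 1), (1961, -1), (2513, 1), (3400, -1), (3472, 1), (3857, 1), (3920, -1),
    (3976, -1), (4012, -1)], [(480, 1), (489, -1), (1002, 1), (1009, -1), (1448, 1), (1888, 1),
    (3024, 1), (3060, -1), (3408, -1), (3464, 1), (3500, -1), (3912, -1)]]

def xA06 : List (List (ℕ × ℤ)) :=
    [[], [(1305, 2), (1368, 2), (2037, 2), (2473, -2), (2913, 2), (3272, -2), (3427, 2), (3560,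
    2), (4080, -2)], [(785, -1), (904, -2), (940, -1), (1489, 1), (2401, 1), (2466, 1), (2985,
    -1), (3569, 1), (4082, -1)], [(428, -1), (912, -1), (2000, 1), (2036, 1), (2472, 1), (2912,
    -1), (3552, 1), (3570, 1)], [], [(464, 1), (1872, 1), (1964, -1), (2544, -1), (3058, -1),
    (3424, 1), (3498, -1), (4000, -1)], [(977, 1), (1013, 1), (1416, 2), (1452, -1), (1937, -1),
    (2537, 1), (2546, 1), (3489, 1), (3937, -1)], [(1424, 2), (1873, 2), (3425, 2), (3490, 2),
    (3720, -2), (3938, -2), (4001, -2)], [(352, -1), (426, -1), (928, -1), (1520, 1), (2034, 1),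
    (2896, -1), (2988, -1), (3536, 1)], [], [(353, -2), (418, 2), (648, 2), (866, 2), (929, -2),
    (2448, 2), (2897, -2)], [(417, -1), (865, -1), (1513, -1), (1522, 1), (2440, -2), (2476, 1),
    (2961, 1), (4049, -1), (4085, 1)], [(481, -2), (1008, 2), (1449, -2), (1889, -2), (2504, -2),
    (2540, 2), (3061, -2)], [], [(480, 1), (498, -1), (1448, 1), (1888, 1), (3024, 1), (3060,
    -1), (3500, -1), (3984, -1)], [(497, -2), (1001, -1), (1010, 1), (1377, -1), (1442, 1),
    (2513, 1), (2549, -1), (3857, 1), (3976, -2), (4012, -1)]]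

def xA07 : List (List (ℕ × ℤ)) :=
    [[(857, -2), (1496, -2), (2760, 2), (2915, 2), (3041, -2), (3425, 2), (3555, -2)], [(1013,
    -2), (1416, -2), (1452, 2), (2537, -2), (3056, 2), (3489, -2), (3937, 2)], [(408, 1), (856,
    1), (1004, 1), (2544, -1), (3040, 1), (3424, -1), (3563, -1), (4083, 1)], [(492, -1), (920,
    -1), (1012, -1), (2008, 1), (2536, 1), (3488, 1), (3571, 1), (3936, -1)], [], [(1433, 1),
    (1817, -1), (1992, 2), (2028, 1), (2401, -1), (2531, 1), (3059, 1), (3569, 1), (4073, 1)],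
    [(985, 1), (1480, 2), (1516, -1), (1945, -1), (2037, -1), (2473, 1), (2547, 1), (2913, -1),
    (3553, 1)], [], [(497, -1), (1001, 1), (1377, 1), (1507, 1), (2035, -1), (2457, 1), (2841,
    1), (3016, 2), (3052, 1)], [], [], [(481, -1), (1449, -1), (1523, 1), (1889, -1), (2504, -2),
    (2540, 1), (2969, 1), (3061, -1), (4057, -1)], [(417, -2), (865, -2), (1513, -2), (2032, -2),
    (2440, -2), (2476, 2), (4085, 2)], [(353, -2), (483, -2), (1736, -2), (1891, -2), (2017, -2),
    (2520, -2), (3929, 2)], [(416, 1), (499, -1), (864, 1), (1512, 1), (3032, 1), (3564, -1),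
    (3992, -1), (4084, 1)], [(352, 1), (491, -1), (1011, -1), (1520, 1), (2016, 1), (3480, 1),
    (3928, -1), (4076, 1)]]

def xA12 : List (List (ℕ × ℤ)) :=
    [[(353, 1), (418, -1), (866, -1), (929, 1), (1233, 1), (2897, 1), (3481, -1), (3994, 1)],
    [(354, 1), (865, -1), (2321, 1), (2961, -1), (3417, 1), (3482, 1), (3930, -1), (3993, -1)],
    [(352, -2), (426, -2), (928, -2), (2449, 2), (2896, -2), (2952, -2), (2988, -2)], [(864, 2),
    (1224, 2), (1379, -2), (1745, -2), (2320, -2), (3416, -2), (3866, -2)], [(1160, 2), (1378,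
    -1), (1888, -1), (2328, -1), (2458, -1), (2842, -1), (2968, -1), (3408, -1), (3984, -1)], [],
    [], [(208, -1), (1376, 1), (1450, 1), (1672, 2), (1890, 1), (1960, 1), (2456, -1), (2970,
    -1), (3856, -1)], [], [(336, -1), (912, 1), (1304, -1), (1434, 1), (1818, -1), (1944, 1),
    (2184, 2), (2402, -1), (2912, -1)], [(784, -1), (1432, 1), (1946, 1), (2400, 1), (2474, -1),
    (2696, 2), (2914, 1), (2984, -1), (3280, -1)], [], [(345, 1), (410, -1), (858, -1), (921, 1),
    (1297, 1), (1937, 1), (3426, 1), (3937, -1)], [(409, 1), (922, -1), (1873, 1), (2257, 1),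
    (3425, 1), (3490, 1), (3938, -1), (4001, -1)], [(344, -2), (794, -2), (1296, -2), (2248, 2),
    (2403, -2), (2769, -2), (3936, 2)], [(1425, -2), (1872, -2), (1928, 2), (1964, 2), (3424,
    -2), (3498, 2), (4000, 2)]]

def xA13 : List (List (ℕ × ℤ)) :=
    [[(208, -1), (712, 2), (867, 1), (1000, -1), (1376, -1), (1515, 1), (2512, -1), (2840, -1),
    (4058, -1)], [(355, 1), (1889, 1), (2329, 1), (2906, -1), (3025, -1), (3409, 1), (3546, 1),
    (4057, -1)], [], [(721, -2), (1160, 2), (1378, -2), (1888, -2), (2328, -2), (2842, -2),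
    (3408, -2)], [(864, 1), (1224, 2), (1379, -1), (2320, -1), (2522, -1), (3032, -1), (3416,
    -1), (3866, -1), (4048, -1)], [(352, -2), (491, 2), (2016, -2), (2521, -2), (3928, 2), (4040,
    -2), (4076, -2)], [], [(353, -1), (483, -1), (1233, 1), (1891, -1), (2017, -1), (3034, 1),
    (3537, -1), (3929, 1)], [(856, 2), (968, 2), (1004, 2), (1497, 2), (3040, 2), (3424, -2),
    (3563, -2)], [(344, -1), (794, -1), (976, 1), (1296, -1), (1498, 1), (2008, 1), (2248, 2),
    (2403, -1), (3936, 1)], [(465, 1), (857, 1), (2010, -1), (2257, 1), (2915, -1), (3041, 1),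
    (3425, -1), (3555, 1)], [], [(337, 1), (474, -1), (985, 1), (1305, 1), (1882, -1), (2001, 1),
    (2913, 1), (3427, 1)], [(986, 1), (1488, 1), (1816, -1), (2400, -1), (2539, -1), (3280, -1),
    (3784, 2), (3939, 1), (4072, 1)], [(336, -2), (1304, -2), (1818, -2), (2184, 2), (2402, -2),
    (2912, -2), (3793, -2)], []]

def xA14 : List (List (ℕ × ℤ)) :=
    [[(776, 1), (985, -1), (1480, -1), (1516, 1), (1945, 1), (2037, 1), (2464, 1), (2473, -1),
    (2913, 1), (3043, 1), (4003, -1), (4080, -1)], [(264, 1), (401, -1), (1488, 1), (1524, -1),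
    (2400, -1), (2474, 1), (2696, -1), (2914, -1), (2977, -1), (2984, 1), (3554, 1), (3568, 1)],
    [(273, -2), (336, -2), (2184, 2), (2402, -2), (2912, -2)], [], [(408, 1), (793, -1), (856,
    1), (1288, 1), (1497, 1), (1928, 1), (1964, 1), (2467, 1), (3049, -1), (3424, -1), (3563,
    -1), (4009, 1)], [(456, -2), (492, 2), (2529, -2), (2536, -2), (3936, 2)], [], [(977, -1),
    (1013, -1), (1297, 1), (1416, -1), (1452, 1), (1800, 1), (2528, 1), (2537, -1), (3042, 1),
    (3056, 1), (3489, -1), (3937, 1)], [(864, 2), (1505, 2), (1512, 2), (3528, 2), (3564, -2)],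
    [(352, -1), (491, 1), (1232, -1), (1506, 1), (2312, 1), (2521, -1), (3354, 1), (3536, 1),
    (3865, -1), (3928, 1), (4040, -1), (4076, -1)], [(136, 1), (354, -1), (865, 1), (995, -1),
    (1744, -1), (2018, -1), (2824, 1), (3033, 1), (3352, 1), (3417, -1), (3930, 1), (4049, 1)],
    [], [(208, -1), (482, -1), (712, 1), (867, 1), (993, 1), (1000, -1), (1376, -1), (1515, 1),
    (2330, 1), (2512, -1), (3336, 1), (3545, -1)], [(200, -1), (355, 1), (720, 1), (931, 1),
    (1889, 1), (1954, 1), (2906, -1), (2969, -1), (3344, -1), (3409, 1), (3848, 1), (3985, -1)],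
    [], [(1160, 2), (1378, -2), (1888, -2), (3345, -2), (3408, -2)]]

def xA15 : List (List (ℕ × ℤ)) :=
    [[(273, -1), (392, -1), (428, 1), (840, 1), (1304, 1), (1369, -1), (1818, 1), (1944, -1),
    (2465, -1), (2912, 1), (3793, 1), (4011, -1)], [(328, 1), (472, 1), (1433, 1), (1817, -1),
    (1880, 1), (1992, 1), (2028, 1), (2401, -1), (2531, 1), (2985, -1), (3499, -1), (4073, 1)],
    [], [(1816, 2), (1881, 2), (2400, 2), (3784, -2), (3939, -2)], [(409, -1), (501, 1), (1352,
    1), (1496, 1), (2475, 1), (2545, 1), (2760, -1), (2915, -1), (3041, 1), (3048, -1), (3425,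
    -1), (3555, 1)], [], [(1928, 2), (1964, 2), (3424, -2), (4000, 2), (4009, 2)], [(281, 1),
    (456, -1), (492, 1), (794, -1), (976, 1), (1296, -1), (1361, 1), (1864, 1), (2529, -1),
    (2769, -1), (3050, 1), (3936, 1)], [], [(353, -1), (418, 1), (648, 1), (866, 1), (929, -1),
    (936, 1), (1451, -1), (2376, 1), (2448, 1), (2897, -1), (3481, 1), (3929, -1)], [(416, 1),
    (425, -1), (864, 1), (1224, 1), (1379, -1), (1505, -1), (1963, -1), (2033, 1), (2888, 1),
    (3353, -1), (3992, -1), (4084, 1)], [(352, 2), (2016, 2), (2025, 2), (4040, 2), (4076, 2)],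
    [(427, 1), (1001, -1), (1377, -1), (1507, -1), (1961, 1), (2457, -1), (2841, -1), (2904, 1),
    (3016, -1), (3052, -1), (3400, 1), (3544, -1)], [(480, 1), (489, -1), (1002, 1), (1009, -1),
    (1448, 1), (1888, 1), (3024, 1), (3060, -1), (3408, -1), (3464, 1), (3500, -1), (3912, 1)],
    [(712, -2), (867, -2), (1376, 2), (2840, 2), (2905, 2)], []]

def xA16 : List (List (ℕ × ℤ)) :=
    [[(785, -1), (940, -1), (1489, 1), (2401, 1), (2466, 1), (2985, -1), (3569, 1), (4082, -1)],
    [(392, 2), (428, -1), (912, -1), (2000, 1), (2036, 1), (2472, 1), (2912, -1), (3552, 1),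
    (3570, 1)], [(401, -2), (784, 2), (2400, -2), (2474, 2), (2696, -2), (2914, -2), (2984, 2)],
    [], [(977, -1), (1013, -1), (1452, 1), (1937, 1), (2537, -1), (2546, -1), (3489, -1), (3937,
    1)], [], [(456, -2), (492, 2), (1012, 2), (2536, -2), (3057, 2), (3488, -2), (3936, 2)],
    [(464, -1), (1872, -1), (1928, 2), (1964, 1), (2544, 1), (3058, 1), (3424, -1), (3498, 1),
    (4000, 1)], [], [(417, -1), (865, -1), (1513, -1), (1522, 1), (2476, 1), (2961, 1), (4049,
    -1), (4085, 1)], [(352, 1), (426, 1), (928, 1), (1520, -1), (2034, -1), (2896, 1), (2952, 2),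
    (2988, 1), (3536, -1)], [(416, 2), (864, 2), (1224, 2), (1379, -2), (1505, -2), (2033, 2),
    (3353, -2), (3416, -2), (4084, 2)], [(480, 1), (498, -1), (1448, 1), (1888, 1), (3024, 1),
    (3060, -1), (3464, 2), (3500, -1), (3984, -1)], [(497, -1), (1010, 1), (1377, -1), (1442, 1),
    (1961, -1), (2513, 1), (3857, 1), (4012, -1)], [], [(1376, 2), (1450, 2), (1672, 2), (1890,
    2), (1960, 2), (3473, -2), (3856, -2)]]

def xA17 : List (List (ℕ × ℤ)) :=
    [[(408, 1), (856, 1), (968, 2), (1004, 1), (2544, -1), (3040, 1), (3424, -1), (3563, -1),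
    (4083, 1)], [(456, 2), (492, -1), (920, -1), (1012, -1), (2008, 1), (2536, 1), (3488, 1),
    (3571, 1), (3936, -1)], [], [], [(985, -1), (1516, 1), (1945, 1), (2037, 1), (2473, -1),
    (2547, -1), (2913, 1), (3553, -1)], [(473, -2), (1816, 2), (2400, 2), (2539, 2), (3784, -2),
    (3939, -2), (4072, -2)], [(392, -2), (428, 2), (2036, -2), (2472, -2), (2912, 2), (3552, -2),
    (4081, -2)], [(1433, -1), (1817, 1), (2028, -1), (2401, 1), (2531, -1), (3059, -1), (3569,
    -1), (4073, -1)], [(712, 2), (867, 2), (1000, -2), (1376, -2), (1515, 2), (2840, -2), (3545,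
    -2)], [(481, -1), (1449, -1), (1523, 1), (1889, -1), (2540, 1), (2969, 1), (3061, -1), (4057,
    -1)], [(497, 1), (1001, -1), (1377, -1), (1507, -1), (2035, 1), (2457, -1), (2841, -1),
    (3052, -1)], [(480, 2), (1009, -2), (1448, 2), (1888, 2), (3060, -2), (3464, 2), (3500, -2)],
    [(416, 1), (499, -1), (864, 1), (1512, 1), (3032, 1), (3528, 2), (3564, -1), (3992, -1),
    (4084, 1)], [(352, 1), (491, -1), (1011, -1), (1520, 1), (2016, 1), (3480, 1), (3928, -1),
    (4040, 2), (4076, 1)], [], []]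

def xA23 : List (List (ℕ × ℤ)) :=
    [[(355, -1), (481, -1), (1889, -1), (2019, -1), (2906, 1), (3025, -1), (3409, -1), (3546,
    1)], [(712, -1), (1000, -1), (1450, 1), (1515, 1), (1672, -1), (1960, 1), (2456, -1), (2512,
    -1), (2905, 1), (2970, -1), (3921, 1), (4058, -1)], [(1378, -1), (1448, -1), (1888, -1),
    (1962, -1), (2328, -1), (2458, 1), (2842, -1), (2968, 1)], [(209, 2)], [(1232, 2)], [(864,
    -1), (1003, 1), (1379, 1), (1512, -1), (2320, 1), (2522, -1), (3866, 1), (4048, -1)], [(648,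
    1), (936, 1), (1233, -1), (1451, -1), (1514, -1), (1736, 1), (2024, -1), (2448, 1), (2520,
    1), (3034, 1), (3418, -1), (3994, 1)], [(354, -1), (417, 1), (865, 1), (930, -1), (3417, -1),
    (3482, 1), (3930, 1), (3993, -1)], [(794, 1), (976, 1), (1296, 1), (1498, 1), (2403, 1),
    (2536, 1), (3936, -1), (4075, -1)], [(2256, 2)], [(345, -1), (410, -1), (858, 1), (921, 1),
    (1297, -1), (1937, 1), (3426, -1), (3937, 1)], [(409, -1), (465, -1), (792, 1), (922, 1),
    (1808, 1), (2010, 1), (2760, -1), (3041, -1), (3490, -1), (3555, -1), (3720, -1), (4001, 1)],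
    [(401, -1), (473, -1), (849, -1), (986, 1), (1881, -1), (1946, 1), (2914, 1), (2977, -1),
    (3491, -1), (3554, -1), (3939, 1), (4065, 1)], [(337, -1), (474, -1), (1882, 1), (2001, 1),
    (2913, -1), (3043, 1), (3427, -1), (3553, 1)], [(3281, 2)], [(1304, -1), (1434, -1), (1818,
    -1), (1944, -1), (2402, -1), (2472, 1), (2912, -1), (2986, 1)]]

def xA24 : List (List (ℕ × ℤ)) :=
    [[(264, -1), (401, -1), (784, 1), (1306, -1), (1946, 1), (2696, -1), (2977, -1), (3491, -1)],
    [(272, 1), (337, -1), (776, -1), (1305, -1), (1882, 1), (2001, 1), (2913, -1), (3272, 1),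
    (3427, -1), (3553, 1), (3792, -1), (4066, -1)], [(785, 2)], [(1304, 1), (1434, -1), (1818,
    1), (1944, -1), (2402, -1), (2472, 1), (2912, -1), (2986, 1)], [(1296, 2)], [(282, -1), (464,
    -1), (793, 1), (856, -1), (968, -1), (1004, -1), (1288, 1), (1497, -1), (2256, 1), (2530,
    -1), (3040, -2), (3424, 1), (3563, 1)], [(280, 1), (410, -1), (1297, -1), (1800, 1), (2768,
    -1), (2979, 1), (3208, 1), (4002, 1)], [(409, 1), (922, -1), (1873, -1), (2257, 1), (3425,
    -1), (3490, 1), (3938, 1), (4001, -1)], [(352, 1), (426, 1), (928, 1), (1506, 1), (2016, 1),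
    (2312, 1), (2449, -1), (2833, -1), (2896, 1), (2952, 1), (2988, 1), (3536, 1)], [(2320, 2)],
    [(353, -1), (418, -1), (866, 1), (929, 1), (3418, -1), (3481, -1), (3929, 1), (3994, 1)],
    [(136, -1), (930, 1), (1744, 1), (1955, 1), (2321, 1), (2824, -1), (3352, -1), (3482, -1)],
    [(200, 1), (355, -1), (481, -2), (720, -1), (994, 1), (1889, -1), (2019, -1), (2906, 1),
    (3025, -1), (3344, 1), (3409, -1), (3848, -1), (4057, 1)], [(419, 1), (1672, -1), (1953, 1),
    (2330, -1), (2970, -1), (3336, -1), (3473, 1), (3856, 1)], [(1378, -1), (1888, -1), (2328,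
    1), (2458, 1), (2842, 1), (2968, 1), (3408, -1), (3984, 1)], [(3857, 2)]]

def xA25 : List (List (ℕ × ℤ)) :=
    [[(328, -1), (400, 1), (785, -1), (848, 1), (904, -1), (940, -1), (1489, -1), (2401, 1),
    (2466, 1), (2985, -1), (3562, 1), (4073, -1)], [(336, 1), (840, -1), (1369, -1), (1434, 1),
    (2184, -1), (2986, -1), (3793, 1), (4011, -1)], [(784, -1), (1432, -1), (1946, -1), (2400,
    1), (2474, 1), (2914, 1), (2984, 1), (3280, 1)], [(337, 2)], [(345, 1), (410, -1), (858, -1),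
    (921, 1), (1297, -1), (1937, 1), (3426, -1), (3937, 1)], [(346, -1), (922, -1), (1352, 1),
    (1424, -1), (1873, -1), (2475, 1), (3720, 1), (4008, -1)], [(344, 1), (794, 1), (976, 1),
    (1296, 1), (1361, -1), (1864, 1), (2248, -1), (2403, 1), (2536, 1), (2769, 1), (3050, 1),
    (3936, -1)], [(1872, 2)], [(648, 1), (936, 1), (1451, -1), (2376, 1), (2448, 1), (2897, -1),
    (3418, -1), (3994, 1)], [(354, -1), (865, 1), (2321, -1), (2961, -1), (3417, 1), (3482, 1),
    (3930, -1), (3993, -1)], [(2896, 2)], [(864, 1), (1224, 1), (1379, -1), (1512, 1), (1745,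
    -1), (2026, 1), (2320, -1), (2385, 1), (2888, -1), (3416, -1), (3866, -1), (4048, 1)], [(721,
    1), (939, 1), (1160, -1), (1962, 1), (2393, -1), (2458, -1), (3408, 1), (3912, -1)], [(490,
    -1), (1001, 1), (1377, 1), (1442, -1), (1961, 1), (2513, 1), (3400, -1), (3472, -1), (3857,
    -1), (3920, 1), (3976, 1), (4012, 1)], [(3409, 2)], [(208, 1), (1376, 1), (1450, -1), (1890,
    1), (1960, -1), (2456, 1), (2970, 1), (3856, -1)]]

def xA26 : List (List (ℕ × ℤ)) :=
    [[(336, 1), (428, -1), (1304, 1), (1434, -1), (1818, 1), (1944, -1), (2000, 1), (2036, 1),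
    (2402, 1), (2472, 1), (3552, 1), (3570, 1)], [(785, 1), (940, 1), (1489, 1), (1525, -1),
    (2401, -1), (2466, -1), (4073, 1), (4082, -1)], [(913, 2)], [(784, 1), (1432, 1), (1946, 1),
    (2400, -1), (2474, 1), (2914, -1), (2984, 1), (3280, -1)], [(346, -1), (409, 1), (857, 1),
    (922, -1), (3425, -1), (3490, -1), (3938, 1), (4001, 1)], [(345, 1), (410, -1), (858, -1),
    (921, 1), (977, -1), (1013, -1), (1452, 1), (1937, 1), (2537, -1), (2546, -1), (3426, 1),
    (4002, -1)], [(464, -1), (1872, 1), (1964, -1), (2544, 1), (3058, 1), (3424, 1), (3498, -1),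
    (4000, -1)], [(1936, 2)], [(136, -1), (424, 1), (1513, -1), (1522, 1), (2384, 1), (2440, 1),
    (3417, -1), (3482, -1), (3930, 1), (3993, 1), (4049, -1), (4085, 1)], [(353, 1), (418, -1),
    (866, -1), (929, 1), (3418, 1), (3481, 1), (3929, -1), (3994, -1)], [(2960, 2)], [(352, 1),
    (426, 1), (2016, 1), (2034, 1), (2896, 1), (2988, 1), (3536, 1), (3572, 1)], [(497, -1),
    (1010, 1), (1377, 1), (1442, -1), (1961, 1), (2513, 1), (3857, -1), (4012, 1)], [(480, 1),
    (498, -1), (1160, -1), (1441, -1), (2328, -1), (2458, -1), (2842, -1), (2968, -1), (3024, 1),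
    (3060, -1), (3345, 1), (3464, -1)], [(208, 1), (1376, 1), (1450, 1), (1890, 1), (1960, 1),
    (2456, 1), (2970, 1), (3856, -1)], [(3985, 2)]]

def xA27 : List (List (ℕ × ℤ)) :=
    [[(492, -1), (920, -1), (976, 2), (1012, -1), (2008, 1), (2536, 1), (3488, 1), (3571, 1),
    (3936, -1)], [(408, 1), (464, 2), (500, -1), (856, 1), (1004, 1), (3040, 2), (3424, -1),
    (3563, -1), (4000, -1), (4083, 1)], [(345, -1), (410, 1), (858, 1), (921, -1), (977, 2),
    (1297, -1), (1937, -1), (3426, -1), (3937, 1)], [(409, 1), (465, 2), (922, -1), (1873, 1),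
    (2257, 1), (3425, 1), (3490, 1), (3938, -1), (4001, -1)], [(784, -1), (1432, 1), (1488, 2),
    (1946, 1), (2400, 1), (2474, -1), (2914, 1), (2984, -1), (3280, -1)], [(985, -1), (1516, 1),
    (1945, 1), (2001, -2), (2037, 1), (2473, -1), (2547, -1), (2913, 1), (3553, -1)], [(1433,
    -1), (1489, -2), (1817, 1), (2028, -1), (2401, 1), (2531, -1), (3059, -1), (3569, -1), (4073,
    -1)], [(336, 1), (912, -1), (1304, 1), (1434, -1), (1818, 1), (1944, -1), (2000, 2), (2402,
    1), (2912, 1)], [(481, -1), (1449, -1), (1523, 1), (1889, -1), (2540, 1), (2969, 1), (3025,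
    -2), (3061, -1), (4057, -1)], [(1376, -1), (1450, -1), (1890, -1), (1960, -1), (2330, 1),
    (2456, 1), (2512, 2), (2840, 1), (2970, 1), (3856, 2)], [(1378, -1), (1888, -1), (2328, -1),
    (2458, -1), (2842, -1), (2968, -1), (3024, 2), (3408, -1), (3984, -1)], [(497, -1), (1001,
    1), (1377, 1), (1507, 1), (2035, -1), (2457, 1), (2513, 2), (2841, 1), (3052, 1)], [(352, 1),
    (491, -1), (1011, -1), (1520, 1), (2016, 1), (3480, 1), (3536, 2), (3928, -1), (4076, 1)],
    [(416, 1), (499, -1), (864, 1), (1512, 1), (3032, 1), (3564, -1), (3992, -1), (4048, 2),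
    (4084, 1)], [(353, -1), (418, 1), (866, 1), (929, -1), (1233, -1), (2897, -1), (3481, 1),
    (3537, 2), (3994, -1)], [(354, 1), (417, -1), (865, -1), (930, 1), (2961, -2), (3417, 1),
    (3482, 1), (3930, -1), (3993, -1), (4049, 2)]]

def xA34 : List (List (ℕ × ℤ)) :=
    [[(346, -1), (465, 1), (1873, 1), (2010, -1), (2915, 1), (3041, 1), (3425, 1), (3555, 1)],
    [(280, 1), (345, -1), (858, 1), (921, 1), (1297, -1), (1800, 1), (2768, -1), (2979, -1),
    (3208, 1), (3426, -1), (3489, -1), (3937, 1)], [(408, 1), (793, 1), (856, -1), (1288, 1),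
    (1497, -1), (1928, -1), (1964, -1), (2467, 1), (3049, 1), (3424, 1), (3563, 1), (4000, -2),
    (4009, -1)], [(344, -1), (794, 1), (976, -1), (1296, 1), (1498, -1), (2008, -1), (2403, -1),
    (3936, 1)], [(1304, 2)], [(1817, -2)], [(272, 1), (474, -1), (776, -1), (1305, -1), (3043,
    1), (3272, 1), (3792, -1), (4066, 1)], [(264, 1), (473, -1), (986, 1), (1306, -1), (1816, 1),
    (3554, -1), (3784, -1), (4065, 1)], [(2841, -2)], [(2328, 2)], [(482, 1), (712, -1), (993,
    -1), (2330, -1), (2840, 1), (3336, 1), (3545, 1), (4058, -1)], [(200, -1), (720, 1), (994,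
    1), (2019, 1), (2329, 1), (3344, -1), (3546, -1), (3848, 1)], [(136, 1), (354, -1), (417, 1),
    (865, 1), (1744, -1), (1955, 1), (2321, -1), (2824, 1), (3352, 1), (3417, -1), (3930, 1),
    (3993, -1)], [(353, 1), (483, -1), (1891, 1), (2017, -1), (2897, 1), (3034, 1), (3418, -1),
    (3537, -1)], [(864, 1), (1379, -1), (2320, 1), (2522, 1), (3032, 1), (3416, -1), (3866, 1),
    (4048, 1)], [(352, 1), (491, -1), (1232, -1), (1506, 1), (2016, 2), (2312, 1), (2521, 1),
    (3354, 1), (3536, 1), (3865, 1), (3928, -1), (4040, 1), (4076, 1)]]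

def xA35 : List (List (ℕ × ℤ)) :=
    [[(856, 2)], [(344, 1), (1361, -1), (1498, 1), (1864, 1), (2248, -1), (2769, 1), (3050, -1),
    (4075, -1)], [(346, 1), (857, 1), (1352, 1), (1496, 1), (2010, 1), (2538, -1), (2760, -1),
    (3048, -1)], [(345, 2)], [(337, 1), (474, -1), (1882, -1), (2001, 1), (2913, -1), (3043, 1),
    (3427, -1), (3553, 1)], [(784, -1), (986, 1), (1306, -1), (1488, 1), (2400, 1), (2539, -1),
    (3939, -1), (4072, 1)], [(840, -1), (912, -1), (1304, 1), (1369, -1), (1818, 1), (1944, 1),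
    (2184, -1), (2402, 1), (2472, -2), (2912, 1), (2986, -1), (3793, 1), (4011, 1)], [(328, 1),
    (472, 1), (904, 1), (940, 1), (1433, -1), (1817, -1), (1880, 1), (2401, -1), (2531, 1),
    (2976, 1), (2985, 2), (3499, 1), (4064, -1)], [(867, -1), (1000, -1), (1376, 1), (1515, 1),
    (2330, -1), (2512, -1), (3856, -1), (4058, -1)], [(355, -1), (481, -1), (1889, -1), (2019,
    -1), (2906, -1), (3025, -1), (3409, 1), (3546, 1)], [(427, -1), (1001, -1), (1377, -1),
    (1507, -1), (1961, -1), (2457, 1), (2841, -1), (2904, 1), (3016, -1), (3052, -1), (3400, 1),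
    (3544, -1)], [(721, -1), (939, 1), (1160, 1), (1378, -1), (1448, -1), (1888, -1), (2328, -1),
    (2393, 1), (2842, -1), (2968, 1), (3408, -1), (3912, 1)], [(1003, 1), (1224, -1), (1745, 1),
    (2026, 1), (2385, -1), (2522, -1), (2888, 1), (3416, 1)], [(3928, 2)], [(3417, 2)], [(1514,
    1), (1736, -1), (2024, 1), (2376, 1), (2520, -1), (3034, -1), (3418, 1), (3929, 1)]]

def xA36 : List (List (ℕ × ℤ)) :=
    [[(794, 1), (920, 2), (976, -1), (1296, 1), (1498, -1), (2008, -2), (2403, 1), (2536, 1),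
    (3936, -1), (4075, -1)], [(408, 2), (464, 1), (1872, 1), (1964, -1), (2544, -1), (3058, -1),
    (3424, 1), (3498, -1), (4000, -1)], [(921, 2), (977, -1), (1013, -1), (1452, 1), (1937, 1),
    (2537, -1), (2546, -1), (3489, -1), (3937, 1)], [(409, 2), (465, 1), (857, 1), (2010, -1),
    (2257, 1), (2915, -1), (3041, 1), (3425, -1), (3555, 1)], [(986, 1), (1432, 2), (1488, 1),
    (1816, -1), (2400, -1), (2539, -1), (3280, -1), (3939, 1), (4072, 1)], [(337, 1), (474, -1),
    (985, 1), (1305, 1), (1882, -1), (1945, -2), (2001, 1), (2913, 1), (3427, 1)], [(785, 1),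
    (940, 1), (1433, -2), (1489, -1), (2401, -1), (2466, -1), (2985, 1), (3569, -1), (4082, 1)],
    [(428, 1), (912, 1), (1944, 2), (2000, -1), (2036, -1), (2472, -1), (2912, 1), (3552, -1),
    (3570, -1)], [(355, -1), (1889, -1), (2329, -1), (2906, 1), (2969, -2), (3025, 1), (3409,
    -1), (3546, -1), (4057, 1)], [(208, 2), (867, -1), (1000, 1), (1376, 1), (1515, -1), (2330,
    -1), (2456, 2), (2512, 1), (3856, -1), (4058, 1)], [(480, -1), (498, 1), (1448, -1), (1888,
    -1), (2968, 2), (3024, -1), (3060, 1), (3500, 1), (3984, 1)], [(497, -1), (1010, 1), (1377,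
    -1), (1442, 1), (1961, -1), (2457, 2), (2513, 1), (3857, 1), (4012, -1)], [(352, -1), (426,
    -1), (928, -1), (1520, 1), (2034, 1), (2896, -1), (2988, -1), (3480, 2), (3536, 1)], [(864,
    1), (1379, -1), (2320, -1), (2522, -1), (3032, -1), (3416, -1), (3866, -1), (3992, 2), (4048,
    -1)], [(353, 1), (483, 1), (1233, -1), (1891, 1), (2017, 1), (3034, -1), (3481, 2), (3537,
    1), (3929, -1)], [(417, -1), (865, -1), (1513, -1), (1522, 1), (2476, 1), (2961, 1), (3993,
    2), (4049, -1), (4085, 1)]]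

def xA37 : List (List (ℕ × ℤ)) :=
    [[(984, 2)], [(1433, 1), (1525, -1), (1817, 1), (2028, -1), (2401, 1), (2531, -1), (2985,
    -1), (3059, 1)], [(272, -1), (474, 1), (985, 1), (1480, 1), (2464, -1), (2547, -1), (3043,
    -1), (3272, -1), (3792, 1), (4003, 1), (4066, -1), (4080, 1)], [(784, -1), (986, 1), (1306,
    -1), (1488, 1), (2400, 1), (2539, 1), (3939, -1), (4072, -1)], [(465, 1), (857, -1), (2010,
    -1), (2257, 1), (2915, 1), (3041, -1), (3425, 1), (3555, -1)], [(2009, -2)], [(408, -1),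
    (856, 1), (1004, 1), (2544, 1), (3040, 1), (3424, -1), (3563, -1), (4083, -1)], [(344, -1),
    (456, 1), (1361, 1), (1498, -1), (2248, 1), (2536, 1), (2769, -1), (2987, -1), (3050, 1),
    (3057, -1), (3497, -1), (3571, -1)], [(3033, -2)], [(353, -1), (483, -1), (1233, -1), (1891,
    -1), (2017, -1), (3034, -1), (3537, 1), (3929, 1)], [(425, -1), (499, 1), (938, 1), (1224,
    -1), (1745, 1), (2033, 1), (2385, -1), (2522, -1), (2960, 1), (3528, 1), (3992, 1), (4048,
    -1)], [(352, -1), (491, 1), (1011, -1), (1520, 1), (2016, -1), (3480, 1), (3928, 1), (4076,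
    -1)], [(1377, -1), (1507, -1), (1961, -1), (2035, -1), (2457, 1), (2549, 1), (2841, -1),
    (3052, -1)], [(4056, 2)], [(208, 1), (867, 1), (1000, -1), (1376, -1), (1515, 1), (2512, 1),
    (2840, -1), (4058, 1)], [(200, 1), (720, -1), (1008, -1), (1440, -1), (1523, 1), (1954, -1),
    (2504, 1), (2969, 1), (3025, -1), (3344, 1), (3546, 1), (3985, 1)]]

def xA45 : List (List (ℕ × ℤ)) :=
    [[(416, -1), (425, 1), (864, 1), (1003, -1), (1963, 1), (2033, -1), (2888, 1), (3032, -1),
    (3528, -1), (3564, 1), (3992, 1), (4084, -1)], [(352, 1), (491, 1), (928, 1), (1443, -1),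
    (2016, -1), (2312, -1), (2521, -1), (3480, -1), (3865, -1), (3928, 1), (4040, -1), (4076,
    -1)], [(136, -1), (354, 1), (865, 1), (930, 1), (1744, 1), (1955, 1), (2824, -1), (2961, -1),
    (3352, -1), (3417, 1), (3930, -1), (3993, -1)], [(353, 1), (483, -1), (1514, 1), (1736, -1),
    (1891, -1), (2017, -1), (2024, 1), (2376, 1), (2520, -1), (2897, 1), (3537, -1), (3929, 1)],
    [(482, -1), (993, 1), (1000, -1), (1376, 1), (1515, 1), (1672, -1), (1890, -1), (2512, -1),
    (2905, 1), (3336, -1), (3545, -1), (3921, 1)], [(200, -1), (355, 1), (481, -1), (720, 1),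
    (994, 1), (1889, -1), (2329, 1), (2906, -1), (3025, -1), (3344, -1), (3409, 1), (3848, 1)],
    [(209, -1), (490, 1), (1377, -1), (1507, 1), (2394, -1), (2513, -1), (2841, 1), (2904, -1),
    (3016, 1), (3052, 1), (3400, -1), (3544, 1)], [(480, -1), (489, 1), (1002, -1), (1009, 1),
    (1888, 1), (1962, 1), (3024, -1), (3060, 1), (3464, -1), (3500, 1), (3912, 1), (3984, 1)],
    [(776, 1), (913, -1), (1480, -1), (1516, 1), (2001, 1), (2037, 1), (2464, 1), (2473, -1),
    (2913, -1), (2978, 1), (4066, -1), (4080, -1)], [(264, -1), (473, 1), (849, 1), (1488, 1),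
    (1881, 1), (2400, 1), (2539, -1), (2696, -1), (2914, -1), (3554, 1), (4065, -1), (4072, 1)],
    [(273, 1), (392, 1), (428, -1), (840, 1), (1304, -1), (1369, 1), (1818, -1), (1944, 1),
    (2465, 1), (2912, 1), (3793, -1), (4011, 1)], [(328, 1), (400, -1), (785, 1), (848, -1),
    (1489, -1), (1992, 1), (2028, 1), (2401, 1), (2466, -1), (2976, -1), (3562, 1), (4064, 1)],
    [(464, -1), (968, 1), (1004, 1), (1288, -1), (1425, -1), (1809, 1), (1872, -1), (2530, -1),
    (3049, 1), (3424, 1), (3498, 1), (4009, -1)], [(794, 1), (920, -1), (1296, 1), (1361, -1),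
    (1864, 1), (1936, -1), (2248, -1), (2403, 1), (2769, 1), (2987, -1), (3936, 1), (4010, -1)],
    [(465, 1), (857, 1), (1352, 1), (1496, 1), (1873, 1), (2538, -1), (2760, -1), (2915, -1),
    (3041, 1), (3048, -1), (3425, 1), (3555, 1)], [(977, 1), (1013, 1), (1416, 1), (1452, -1),
    (1800, -1), (1937, -1), (2528, -1), (2537, 1), (3042, -1), (3056, -1), (3937, 1), (4002, 1)]]

def xA46 : List (List (ℕ × ℤ)) :=
    [[(928, 1), (1506, -1), (2034, 1), (2312, 1), (2449, -1), (2833, -1), (2952, 1), (3572, 1)],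
    [(416, 2)], [(929, 2)], [(417, 1), (930, 1), (1504, -1), (1522, 1), (2018, -1), (2032, 1),
    (2440, 1), (2824, 1)], [(931, 1), (1008, 1), (1440, 1), (1449, -1), (1889, -1), (2019, 1),
    (2329, -2), (2504, -1), (2540, 1), (2969, -1), (3061, -1), (3848, -1), (4057, -1)], [(419,
    1), (712, -1), (867, -1), (1376, 1), (1450, 1), (1953, -1), (1960, 1), (2456, 1), (2840, 2),
    (2905, 1), (3336, 1), (3473, -1), (3921, 1)], [(480, -1), (498, 1), (1448, 1), (1888, 1),
    (3024, -1), (3060, 1), (3500, -1), (3984, 1)], [(497, 1), (1010, -1), (1377, -1), (1442, -1),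
    (1961, -1), (2513, -1), (3857, -1), (4012, -1)], [(264, -1), (401, -1), (784, 2), (1488, -1),
    (1524, 1), (2400, -1), (2474, 1), (2696, -1), (2914, -1), (2977, -1), (2984, 1), (3554, -1),
    (3568, -1)], [(776, 1), (1305, 1), (1480, -1), (1516, 1), (1945, -1), (2037, 1), (2464, 1),
    (2473, -1), (2913, 1), (3553, -1), (4003, 1), (4080, -1)], [(785, 1), (940, -1), (1489, -1),
    (1525, 1), (2401, 1), (2466, -1), (4073, -1), (4082, 1)], [(428, 1), (912, -1), (2000, 1),
    (2036, 1), (2472, -1), (2912, 1), (3552, 1), (3570, 1)], [(3488, 2)], [(500, -1), (1288, -1),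
    (1425, -1), (1809, 1), (1928, 1), (2530, -1), (3058, -1), (4000, 1)], [(1416, 1), (1800, -1),
    (2528, -1), (2546, -1), (3042, -1), (3056, -1), (3489, 1), (4002, 1)], [(4001, 2)]]

def xA47 : List (List (ℕ × ℤ)) :=
    [[(497, -1), (1001, -1), (1377, -1), (1507, 1), (2035, -1), (2457, 1), (2841, 1), (3052,
    -1)], [(480, 2)], [(482, 1), (712, 1), (867, 1), (993, 1), (1000, -1), (1376, -1), (1515, 1),
    (2512, 1), (2840, -1), (3336, -1), (3545, -1), (3856, 1)], [(481, 1), (931, 1), (1008, -1),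
    (1440, -1), (1523, 1), (2019, -1), (2504, 1), (3848, 1)], [(417, -1), (865, -1), (1504, 1),
    (1513, -1), (2018, -1), (2032, -1), (2321, 1), (2440, -1), (2476, 1), (2824, -1), (4049, 1),
    (4085, 1)], [(2017, -2)], [(416, -1), (499, 1), (864, 1), (1003, 1), (3416, -1), (3564, -1),
    (3992, 1), (4084, -1)], [(1011, 1), (1443, 1), (2016, 1), (2312, 1), (2521, 1), (3572, -1),
    (3865, 1), (4040, 1)], [(3041, -2)], [(921, 1), (1013, -1), (1416, -1), (1452, 1), (1800, 1),
    (2009, -1), (2528, 1), (2537, -1), (2979, -1), (3056, 1), (3489, -2), (3937, 1), (4067, 1)],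
    [(500, 1), (793, -1), (968, 1), (1288, -1), (1497, 1), (2467, 1), (3040, 1), (4083, -1)],
    [(492, 1), (920, -1), (1012, -1), (2008, 1), (2536, -1), (3488, 1), (3571, 1), (3936, 1)],
    [(3552, 2)], [(1433, 1), (1817, -1), (2028, -1), (2401, 1), (2531, 1), (3059, 1), (3569, 1),
    (4073, -1)], [(776, -1), (1480, 1), (2464, -1), (2547, -1), (3043, -1), (3553, 1), (4003, 1),
    (4080, 1)], [(264, 1), (473, -1), (784, -1), (1488, 1), (1816, 1), (2400, 1), (2539, 1),
    (3554, 1), (3784, -1), (3939, -1), (4065, 1), (4072, -1)]]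

def xA56 : List (List (ℕ × ℤ)) :=
    [[(353, -1), (418, 1), (648, 1), (866, 1), (929, -1), (936, 1), (1514, -1), (1521, 1), (2376,
    1), (2448, 1), (2897, -2), (3537, 1), (3573, 1)], [(865, -1), (930, -1), (1513, 1), (1522,
    -1), (2321, 1), (2476, 1), (4049, 1), (4085, -1)], [(352, -1), (426, 1), (2016, -1), (2034,
    -1), (2896, 1), (2988, -1), (3536, -1), (3572, -1)], [(416, -1), (425, 1), (864, -1), (1003,
    1), (1512, -2), (1963, -1), (2033, -1), (2888, 1), (3032, 1), (3528, -1), (3564, 1), (3992,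
    -1), (4084, -1)], [(489, -1), (498, 1), (1002, 1), (1009, -1), (1448, 1), (1962, -1), (3464,
    1), (3912, -1)], [(490, -1), (1010, -1), (1961, -1), (2549, -1), (3400, 1), (3472, 1), (3920,
    -1), (3976, -1)], [(1449, -2)], [(1960, 2)], [(328, -1), (400, 1), (848, 1), (904, -1),
    (1525, 1), (2985, -1), (3562, -1), (4082, 1)], [(392, 1), (840, 1), (2472, 1), (2986, -1),
    (3561, -1), (3570, -1), (4074, 1), (4081, 1)], [(2984, 2)], [(2473, 2)], [(977, 1), (1013,
    1), (1297, -1), (1452, 1), (2537, 1), (2546, 1), (3937, 1), (4002, -1)], [(409, -1), (857,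
    -1), (1352, -1), (1424, 1), (1873, 1), (2475, 1), (3425, 1), (3490, 1), (3720, -1), (3938,
    -1), (4001, -1), (4008, 1)], [(281, -1), (344, -2), (920, -1), (1012, 1), (1864, -1), (2248,
    1), (2403, -1), (2529, 1), (2987, -1), (3057, 1), (3488, -1), (3497, 1), (3936, 1)], [(464,
    -1), (1872, -1), (1964, -1), (2544, 1), (3058, 1), (3424, 1), (3498, 1), (4000, -1)]]

def xA57 : List (List (ℕ × ℤ)) :=
    [[(1000, 2)], [(1449, 1), (1523, -1), (1889, -1), (2019, 1), (2329, -1), (2540, 1), (2969,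
    -1), (3061, 1)], [(427, -1), (1001, 1), (2035, 1), (2549, -1), (2904, -1), (3016, 1), (3400,
    -1), (3544, 1)], [(480, -1), (489, 1), (1002, 1), (1009, 1), (1448, -1), (1888, -1), (3024,
    1), (3060, 1), (3408, -1), (3464, -1), (3500, 1), (3912, 1)], [(425, -1), (499, 1), (1003,
    1), (1512, 1), (1963, -1), (2033, 1), (2888, -1), (3528, 1)], [(352, 1), (491, 1), (928, 1),
    (1011, 1), (3480, -1), (3572, -1), (3928, 1), (4076, 1)], [(1513, -2)], [(353, -1), (483,
    -1), (1514, -1), (1736, -1), (1891, -1), (2017, -1), (2024, 1), (2376, 1), (2520, -1), (2897,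
    -1), (3537, 1), (3929, 1)], [(408, -1), (500, 1), (856, -1), (1004, 1), (3424, -1), (3563,
    1), (4000, 1), (4083, -1)], [(456, 1), (1864, 1), (2536, 1), (2987, -1), (3057, -1), (3497,
    -1), (3571, -1), (4075, 1)], [(465, 1), (857, -1), (1352, -1), (1496, -1), (1873, 1), (2538,
    -1), (2760, 1), (2915, 1), (3041, -1), (3048, 1), (3425, 1), (3555, -1)], [(2537, 2)], [(985,
    1), (1516, 1), (1945, -1), (2037, -1), (2473, 1), (2547, 1), (2913, 1), (3553, -1)], [(4072,
    2)], [(273, 1), (336, 2), (840, -1), (2000, 1), (2036, -1), (2184, -1), (2402, 1), (2465, 1),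
    (2912, 1), (3552, -1), (3561, 1), (4074, 1), (4081, -1)], [(328, 1), (472, 1), (1525, 1),
    (1880, 1), (1992, 1), (3059, -1), (3499, -1), (4073, 1)]]

def xA67 : List (List (ℕ × ℤ)) :=
    [[(1449, 1), (1523, 1), (1889, 1), (2019, -1), (2329, 1), (2540, -1), (2969, 1), (3061, 1)],
    [(496, 2)], [(480, 1), (498, 1), (1448, 1), (1888, 1), (3024, -1), (3060, -1), (3500, -1),
    (3984, 1)], [(427, 1), (490, 1), (1001, -1), (1010, 1), (1961, 1), (2035, -1), (2904, 1),
    (3016, -1), (3472, -1), (3544, -1), (3920, 1), (3976, 1)], [(1011, 1), (1232, 1), (2034, -1),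
    (2449, 1), (2521, 1), (2833, 1), (2952, -1), (3354, -1), (3480, -1), (3536, -1), (3865, 1),
    (4040, 1)], [(416, 1), (499, 1), (864, 1), (1003, 1), (3416, -1), (3564, -1), (3992, 1),
    (4084, 1)], [(1521, -2)], [(417, -1), (865, -1), (1513, -1), (1522, -1), (2476, 1), (2961,
    -1), (4049, 1), (4085, 1)], [(492, 1), (920, -1), (1012, 1), (2008, 1), (2536, -1), (3488,
    -1), (3571, 1), (3936, 1)], [(793, 1), (1004, 1), (1425, -1), (1497, -1), (1809, 1), (1964,
    -1), (2467, -1), (2530, -1), (3049, 1), (3058, -1), (4009, -1), (4083, 1)], [(977, -1),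
    (1013, 1), (1297, 1), (1452, -1), (2537, 1), (2546, -1), (3937, -1), (4002, 1)], [(2545, 2)],
    [(3568, 2)], [(985, 1), (1516, 1), (1945, -1), (2037, 1), (2473, -1), (2547, 1), (2913, 1),
    (3553, -1)], [(785, 1), (904, -1), (1433, -1), (1489, -1), (1817, 1), (1992, 1), (2466, -1),
    (2531, -1), (2976, -1), (3059, -1), (4064, 1), (4082, 1)], [(428, 1), (912, -1), (2000, 1),
    (2036, -1), (2472, -1), (2912, 1), (3552, -1), (3570, 1)]]

def xlA : List (List (List (ℕ × ℤ))) :=
    [[], xA01, xA02, xA03, xA04, xA05, xA06, xA07, [], [], xA12, xA13, xA14, xA15, xA16, xA17,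
    [], [], [], xA23, xA24, xA25, xA26, xA27, [], [], [], [], xA34, xA35, xA36, xA37, [], [], [],
    [], [], xA45, xA46, xA47, [], [], [], [], [], [], xA56, xA57, [], [], [], [], [], [], [],
    xA67, [], [], [], [], [], [], [], []]

def zlA : List (List (List (ℕ × ℤ))) :=
    [[], [[(5081, -1), (7112, -1)], [(4360, 1), (7448, -1)], [(1504, -1), (4552, 1)], [(3488,
    -1), (7944, -1)], [(3929, -1), (6856, 1)], [(1288, -1), (1808, 1)], [(3976, 1), (7081, 1)],
    [(3408, 1), (7304, 1)]], [[(5968, -1)], [(6032, 1)], [(3208, 1)], [(2696, 1)], [(3024, -1)],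
    [(3536, 1)], [(4304, 1)], [(2832, 1)]], [[(5976, -1)], [(1224, -1)], [(8088, -1)], [(6104,
    1)], [(1432, 1)], [(3544, 1)], [(3416, 1)], [(7880, -1)]], [[(1800, -1)], [(6048, 1)],
    [(7520, -1)], [(6112, 1)], [(5896, -1)], [(7448, 1)], [(7432, -1)], [(7440, -1)]], [[(1360,
    -1)], [(1352, -1)], [(8104, -1)], [(8032, 1)], [(3048, -1)], [(1376, 1)], [(4440, -1)],
    [(8008, -1)]], [[(2968, -1)], [(1936, -1)], [(4592, 1)], [(2952, 1)], [(3056, -1)], [(7576,
    1)], [(7560, -1)], [(7568, -1)]], [[(1992, -1)], [(2000, -1)], [(8176, 1)], [(8160, 1)],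
    [(2024, 1)], [(1504, 1)], [(7624, -1)], [(8136, -1)]], [], [], [[(7121, -1)], [(136, 1)],
    [(209, 1)], [(6993, 1)], [(785, 1)], [(913, -1)], [(6280, 1)], [(977, -1)]], [[(712, 1)],
    [(5465, 1)], [(6425, 1)], [(3784, 1)], [(5329, 1)], [(5320, 1)], [(6344, 1)], [(985, -1)]],
    [[(5537, -1)], [(5473, 1)], [(3857, 1)], [(7009, 1)], [(5393, 1)], [(5384, 1)], [(481, 1)],
    [(3937, 1)]], [[(840, 1)], [(6633, 1)], [(6497, -1)], [(2385, 1)], [(4936, 1)], [(937, -1)],
    [(2401, -1)], [(1001, -1)]], [[(7153, -1)], [(2457, -1)], [(409, -1)], [(2449, 1)], [(7065,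
    -1)], [(5009, 1)], [(2465, -1)], [(7048, 1)]], [[(5089, -1)], [(5609, -1)], [(2504, 1)],
    [(2513, 1)], [(5585, 1)], [(5073, 1)], [(2529, -1)], [(4073, -1)]], [], [], [], [[(720, 1)],
    [(6042, 1)], [(3281, -1)], [(6106, 1)], [(794, 1)], [(3546, 1)], [(6352, 1)], [(986, -1)]],
    [[(5986, -1)], [(6050, 1)], [(3345, -1)], [(7010, 1)], [(5905, 1)], [(354, 1)], [(3426, 1)],
    [(3490, 1)]], [[(848, 1)], [(6634, 1)], [(6498, -1)], [(2897, -1)], [(866, -1)], [(4433,
    -1)], [(4442, -1)], [(1002, -1)]], [[(7154, -1)], [(400, 1)], [(4594, 1)], [(7082, -1)],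
    [(7066, -1)], [(426, -1)], [(4506, -1)], [(2978, -1)]], [[(2001, 1), (2521, -1)], [(464, 1),
    (4304, -1)], [(913, -1), (3537, -1)], [(4084, 1), (8162, 1)], [(2026, 1), (2539, -1)],
    [(4561, -1), (6417, 1)], [(2019, 1), (2530, -1)], [(4081, -1), (8145, 1)]], [], [], [], [],
    [[(5987, -1)], [(6051, 1)], [(3866, -1)], [(6115, 1)], [(5913, 1)], [(5400, 1)], [(3427, 1)],
    [(3491, 1)]], [[(856, 1)], [(1369, 1)], [(6499, -1)], [(6571, 1)], [(867, -1)], [(1379, 1)],
    [(8026, 1)], [(8025, 1)]], [[(1369, -1), (6059, 1)], [(408, 1), (4592, 1)], [(3481, -1),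
    (3929, 1)], [(1497, 1), (6131, 1)], [(5016, 1), (7568, -1)], [(1443, 1), (5402, 1)], [(3281,
    -1), (8090, 1)], [(4011, -1), (6488, 1)]], [[(1498, 1)], [(1497, 1)], [(4058, -1)], [(8163,
    1)], [(5594, -1)], [(5592, 1)], [(8154, 1)], [(4075, -1)]], [], [], [], [], [], [[(1889, 1),
    (6937, -1)], [(2536, -1), (6636, 1)], [(355, 1), (5400, -1)], [(2402, -1), (6480, -1)],
    [(3052, -1), (8169, 1)], [(3353, 1), (7523, -1)], [(1369, 1), (4451, 1)], [(1004, -1), (5096,
    1)]], [[(1953, 1)], [(1954, 1)], [(7596, 1)], [(7084, -1)], [(1964, 1)], [(7587, -1)], [(500,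
    1)], [(7072, 1)]], [[(2017, 1)], [(5612, -1)], [(7660, 1)], [(4064, 1)], [(2028, 1)], [(5600,
    1)], [(7649, 1)], [(4076, -1)]], [], [], [], [], [], [], [[(5036, 1)], [(4524, 1)], [(2472,
    1)], [(2985, -1)], [(3061, -1)], [(4521, -1)], [(2476, 1)], [(2988, 1)]], [[(5100, 1)],
    [(2539, 1)], [(8181, 1)], [(2538, -1)], [(5096, 1)], [(5098, -1)], [(2540, 1)], [(5099, 1)]],
    [], [], [], [], [], [], [], [[(2033, 1)], [(2034, 1)], [(7669, -1)], [(2035, -1)], [(2037,
    -1)], [(5106, -1)], [(2548, 1)], [(5107, 1)]], [], [], [], [], [], [], [], []]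

theorem k1A : K1 (psiG clA lamA) :=
  k1_of_cert clA lamA 2 (by decide) (fun a j => ylA.getD (8 * a.val + j.val) [])
    (fun a a' s => (xlA.getD (8 * a.val + a'.val) []).getD s.val []) (by decide +kernel)

theorem k2A : K2 (psiG clA lamA) :=
  k2_of_cert clA lamA
    (fun a a' j => (zlA.getD (8 * a.val + a'.val) []).getD j.val []) (by decide +kernel)

end Vale.Agent.P256
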