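import Mathlib
import Vale.Agent.P256.SExC

/-! P256: certificates. -/

namespace Vale.Agent.P256

def clB (i j : Fin 8) : Fin 16 := f16 (10158701072978786140492641137930064765700612838346573001049116950445577294385 >>> (4 * (8 * i.val + j.val)))

def lamB (i j : Fin 8) : ℤ := if (9223476095832424672 >>> (8 * i.val + j.val)) % 2 = 1 then -1 else 1

def ylB : List (List (ℕ × ℤ)) :=
    [[(16, 2)], [(38, -2)], [(39, -2)], [(20, 2)], [(24, 2)], [(46, -2)], [(47, -2)], [(28, 2)],
    [(17, -2)], [(166, -2)], [(167, -2)], [(21, -2)], [(25, -2)], [(174, -2)], [(175, -2)], [(29,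
    2)], [(33, -2)], [(35, -2)], [(34, -2)], [(37, -2)], [(41, -2)], [(43, 2)], [(42, 2)], [(45,
    2)], [(49, -2)], [(178, -2)], [(50, -2)], [(304, -2)], [(57, -2)], [(186, -2)], [(58, 2)],
    [(312, -2)], [(192, -2)], [(326, 2)], [(327, 2)], [(196, -2)], [(200, -2)], [(334, 2)],
    [(335, 2)], [(204, -2)], [(340, -2)], [(83, -2)], [(211, -2)], [(85, -2)], [(348, -2)], [(91,
    2)], [(219, -2)], [(93, 2)], [(97, -2)], [(99, -2)], [(98, -2)], [(101, -2)], [(105, -2)],
    [(107, 2)], [(106, 2)], [(109, 2)], [(240, -2)], [(115, -2)], [(114, -2)], [(244, -2)],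
    [(248, -2)], [(123, 2)], [(122, 2)], [(252, -2)]]

def xB01 : List (List (ℕ × ℤ)) :=
    [[], [], [(930, -2), (1009, 2), (1506, 2), (1520, 2), (1960, -2), (2025, 2), (2376, -2),
    (2549, 2), (3473, -2), (3536, 2), (3572, -2)], [(208, 2), (419, 2), (1442, 2), (1521, 2),
    (1736, -2), (2035, 2), (2330, -2), (2521, 2), (2961, -2)], [], [], [(929, -1), (992, -1),
    (1440, 1), (1505, 1), (2952, 1), (3528, 1)], [(928, -1), (993, -1), (1441, 1), (1504, 1),
    (3016, 1), (3464, 1)], [], [], [(328, 2), (501, 2), (1425, 2), (1872, -2), (1964, -2), (2978,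
    -2), (3057, -2), (3938, 2), (4073, 2)], [(282, 2), (473, 2), (913, 2), (2256, -2), (2467,
    -2), (3490, 2), (3569, -2), (3784, 2), (4083, 2)], [], [], [(904, 1), (1480, 1), (2977, -1),
    (3040, 1), (3488, -1), (3553, 1)], [(968, 1), (1416, 1), (2976, 1), (3041, -1), (3489, 1),
    (3552, -1)]]

def xB02 : List (List (ℕ × ℤ)) :=
    [[(136, -2), (417, 1), (498, -1), (1954, -1), (2033, 1), (2321, 1), (4049, -1)], [], [], [],
    [(418, 1), (497, -1), (1672, -2), (1953, -1), (2034, 1), (2513, 1), (3857, -1)], [], [], [],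
    [(273, 1), (2001, 1), (2184, -2), (2465, 1), (2546, 1), (4002, -1), (4081, -1)], [], [], [],
    [(465, -1), (1809, -1), (2466, 1), (2545, 1), (3720, -2), (4001, -1), (4082, -1)], [], [],
    []]

def xB03 : List (List (ℕ × ℤ)) :=
    [[(867, -1), (928, -1), (1888, -1), (1955, -1), (2904, 1), (3992, 1)], [], [], [(1224, -2)],
    [(208, -2), (419, -1), (426, -1), (1442, -1), (1451, -1), (2330, 1), (3418, -1)], [(930, 2),
    (939, 2), (1506, -2), (1515, -2), (2520, 2), (2549, 2), (3536, -2), (3572, 2), (3994, -2)],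
    [(864, -1), (931, -1), (1891, -1), (1952, -1), (2968, 1), (3928, 1)], [(721, -1), (1232, 1),
    (1672, -1), (2969, 1), (3480, 1), (3976, -1)], [(856, -1), (1944, 1), (2915, 1), (2976, -1),
    (3936, 1), (4003, -1)], [], [], [(3272, -2)], [(282, 1), (1370, -1), (2256, -2), (2467, -1),
    (2474, 1), (3490, 1), (3499, -1)], [(472, 2), (501, -2), (1488, 2), (1524, -2), (1946, 2),
    (2978, -2), (2987, 2), (3554, 2), (3563, -2)], [(920, 1), (1880, -1), (2912, 1), (2979, -1),
    (3939, 1), (4000, -1)], [(921, -1), (1432, 1), (1928, 1), (2769, 1), (3280, 1), (3720, 1)]]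

def xB04 : List (List (ℕ × ℤ)) :=
    [[(464, 1), (500, 1), (1808, -1), (2530, 1), (2544, -1), (4000, 1)], [(840, 2), (2913, -2),
    (3424, -2)], [(913, 2), (976, 2), (1012, 2), (1489, -2), (2028, 2), (2400, -2), (3490, 2),
    (3569, -2), (4072, 2)], [(472, -2), (977, 2), (1425, -2), (1488, -2), (1524, 2), (1816, 2),
    (2531, -2), (2978, 2), (3057, 2)], [(272, -1), (1360, -1), (1452, -1), (2464, 1), (3426, -1),
    (3496, 1)], [(792, 2), (1305, -2), (3272, 2)], [(784, 1), (1818, -1), (1944, -1), (2976, 1),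
    (3792, -1), (4003, 1)], [(785, -1), (904, -1), (1296, 1), (2696, -1), (2977, 1), (3488, 1)],
    [(482, -1), (496, 1), (1952, 1), (2512, -1), (2548, -1), (3856, -1)], [(865, 2), (1376, -2),
    (2888, -2)], [(208, -2), (419, -2), (426, -2), (1442, -2), (1451, -2), (1736, 2), (2824, -2),
    (3418, -2), (3865, 2)], [(353, -2), (930, -2), (939, -2), (2376, -2), (2906, -2), (3336, -2),
    (3920, 2), (3994, 2), (4012, 2)], [(416, 1), (2018, 1), (2032, 1), (2320, -1), (4048, -1),
    (4084, 1)], [(1224, 2), (2840, -2), (3353, -2)], [(928, 1), (1160, -1), (1441, -1), (2832,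
    1), (3345, 1), (3464, -1)], [(354, 1), (424, 1), (1440, 1), (2384, 1), (2476, -1), (3344,
    1)]]

def xB05 : List (List (ℕ × ℤ)) :=
    [[(858, 1), (1872, -2), (1946, 1), (1964, -1), (2978, -1), (2987, 1), (3938, 1)], [(976, -2),
    (1012, -2), (2474, -2), (3042, 2), (3051, -2), (3490, -2), (3499, 2), (4072, -2), (4083, 2)],
    [(840, -2)], [], [(280, 1), (428, -1), (1368, 1), (2472, 1), (3427, 1), (3488, 1)], [],
    [(392, -1), (848, 1), (1361, -1), (2184, -1), (2984, 1), (3497, 1)], [(344, -1), (1304, -1),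
    (1452, -1), (2403, -1), (2464, 1), (3496, 1)], [(930, 1), (939, 1), (1890, 1), (2906, 1),
    (3920, -2), (3994, -1), (4012, -1)], [(426, -2), (994, 2), (1003, 2), (1442, -2), (1451, -2),
    (2024, 2), (2035, 2), (3024, -2), (3060, -2)], [(2888, -2)], [], [(424, 1), (1379, -1),
    (1440, 1), (2328, -1), (2476, -1), (3416, -1)], [], [(136, 1), (936, 1), (1449, -1), (2440,
    1), (2896, 1), (3409, 1)], [(355, 1), (416, 1), (1448, 1), (2392, 1), (3352, 1), (3500, -1)]]

def xB06 : List (List (ℕ × ℤ)) :=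
    [[(392, -1), (1936, -1), (2001, 1), (2184, -1), (2546, 1), (4081, -1)], [], [], [], [(400,
    -1), (465, -1), (1928, -1), (2545, 1), (3720, -1), (4082, -1)], [], [(912, 1), (1872, -1),
    (1964, -1), (2978, -1), (3938, 1), (4008, -1)], [(976, 1), (1012, 1), (1424, 1), (3042, -1),
    (3056, 1), (3490, 1)], [(136, -1), (498, -1), (2033, 1), (2440, -1), (3984, -1), (4049, -1)],
    [], [], [], [(497, -1), (1672, -1), (2034, 1), (2448, -1), (2513, 1), (3976, -1)], [], [(930,
    -1), (1506, 1), (1520, 1), (2960, 1), (3536, 1), (3572, -1)], [(994, -1), (1008, 1), (1442,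
    1), (3024, 1), (3060, 1), (3472, 1)]]

def xB07 : List (List (ℕ × ℤ)) :=
    [[(456, -1), (1800, 1), (2036, -1), (2464, 1), (2529, -1), (4080, -1)], [(392, 2), (2984,
    -2), (3049, 2), (3497, -2), (3560, 2)], [], [], [(264, 1), (500, 1), (1992, -1), (2544, -1),
    (4000, 1), (4065, 1)], [(921, 2), (984, 2), (1432, -2), (1497, -2), (1928, -2)], [(913, 1),
    (976, 2), (1012, 1), (1489, -1), (3042, -1), (3490, 1), (3569, -1)], [(977, -1), (1425, 1),
    (1488, 2), (1524, -1), (2978, -1), (3057, -1), (3554, 1)], [(416, -1), (481, -1), (2032, -1),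
    (2504, -1), (3848, -1), (4084, -1)], [(936, -2), (1001, -2), (1449, 2), (1512, 2), (2440,
    -2)], [], [], [(496, -1), (1952, -1), (2017, 1), (2312, -1), (2548, 1), (4040, -1)], [(2969,
    2), (3032, -2), (3480, 2), (3545, -2), (3976, -2)], [(994, -1), (1442, 1), (1521, 1), (2961,
    -1), (3024, 2), (3060, 1), (3537, 1)], [(930, -1), (1009, 1), (1506, 1), (3025, 1), (3473,
    -1), (3536, 2), (3572, -1)]]

def xB12 : List (List (ℕ × ℤ)) :=
    [[(355, -2), (416, -2), (1000, 2), (1448, -2), (1513, -2), (2392, -2), (2504, 2), (2897, 2),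
    (3352, -2), (3408, 2), (3500, 2)], [(417, 1), (498, -1), (1954, -1), (2033, 1), (2321, 1),
    (4049, -1)], [(928, -1), (993, -1), (1160, 2), (1441, 1), (1504, 1), (3016, 1), (3464, 1)],
    [(648, 2), (929, -1), (992, -1), (1440, 1), (1505, 1), (2952, 1), (3528, 1)], [(720, 2),
    (931, 2), (1233, -2), (1507, -2), (1952, 2), (2017, -2), (2312, 2), (2968, -2), (3033, 2)],
    [(418, 1), (497, -1), (1953, -1), (2034, 1), (2513, 1), (3857, -1)], [], [], [(849, -2),
    (1004, -2), (1360, 2), (1452, 2), (1800, -2), (2464, -2), (2529, 2), (3496, -2), (3561, 2)],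
    [(273, 1), (2001, 1), (2465, 1), (2546, 1), (4002, -1), (4081, -1)], [(968, -1), (1416, -1),
    (2976, -1), (3041, 1), (3208, -2), (3489, -1), (3552, 1)], [(904, -1), (1480, -1), (2696,
    -2), (2977, 1), (3040, -1), (3488, 1), (3553, -1)], [(264, 2), (920, -2), (985, -2), (2768,
    2), (2979, 2), (3281, 2), (3555, -2), (4000, 2), (4065, 2)], [(465, 1), (1809, 1), (2466,
    -1), (2545, -1), (4001, 1), (4082, 1)], [], []]

def xB13 : List (List (ℕ × ℤ)) :=
    [[(929, -1), (992, -1), (1440, 1), (1505, 1), (2905, 2), (2952, 1), (3416, 2), (3528, 1),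
    (3912, -2)], [(200, 1), (1160, 1), (1744, -1), (2329, 1), (3345, -1), (3866, -1)], [], [(712,
    2)], [(209, -2)], [(419, 1), (426, 1), (1442, 1), (1451, 1), (2330, -1), (2521, 2), (3418,
    1), (3537, -2), (4058, -2)], [(721, 1), (1232, -1), (1672, 1), (2969, 1), (3480, 1), (3976,
    -1)], [(864, 1), (931, 1), (1891, 1), (1952, 1), (2968, -1), (3033, 2), (3544, 2), (3928,
    -1), (4040, -2)], [(280, -1), (857, -2), (904, 1), (1368, 1), (1864, 1), (2977, -1), (3427,
    -1), (3488, -1), (3937, 1)], [(281, 1), (1416, 1), (1944, 1), (2248, 1), (3489, 1), (4003,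
    -1)], [], [(2760, -2)], [(2257, -2)], [(282, 1), (473, 2), (1370, -1), (1489, 2), (2010, -2),
    (2467, -1), (2474, 1), (3490, 1), (3499, -1)], [(921, 1), (1432, -1), (1928, -1), (2769, 1),
    (3280, 1), (3720, 1)], [(920, 1), (985, 2), (1496, -2), (1880, -1), (1992, -2), (2912, 1),
    (2979, -1), (3939, 1), (4000, -1)]]

def xB14 : List (List (ℕ × ℤ)) :=
    [[], [(264, 2), (464, 1), (500, 1), (1808, -1), (2530, 1), (2544, -1), (4000, 1)], [(977, 2),
    (2401, -2), (2538, -2), (3938, 2), (4073, 2)], [(282, -2), (473, -2), (1489, -2), (1817, 2),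
    (2010, 2)], [], [(272, -1), (1800, 2), (2000, 1), (2036, -1), (2464, 1), (4066, -1), (4080,
    -1)], [(785, 1), (1296, -1), (1480, 1), (2696, 1), (3040, 1), (3553, 1)], [(784, -1), (968,
    -1), (1297, 1), (3041, 1), (3208, -1), (3552, 1)], [], [(720, 1), (931, 1), (1952, 1), (2312,
    2), (2842, 1), (2968, -1), (3856, -1)], [(353, 2), (490, -2), (1890, -2), (2025, 2), (3025,
    -2)], [(2330, 2), (2521, -2), (3537, 2), (3865, -2), (4058, 2)], [], [(416, -1), (1378, 1),
    (1448, -1), (2320, 1), (3408, 1), (3500, 1), (3848, -2)], [(648, 1), (992, -1), (1505, 1),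
    (2833, 1), (3344, 1), (3528, 1)], [(993, 1), (1160, -1), (1504, -1), (2832, 1), (3016, -1),
    (3345, 1)]]

def xB15 : List (List (ℕ × ℤ)) :=
    [[(1873, -2)], [(858, -1), (977, -2), (1946, -1), (1964, 1), (2538, 2), (2978, 1), (2987,
    -1), (3938, -1), (4073, -2)], [(1352, 2)], [], [(281, 1), (856, -1), (1369, 2), (1416, 1),
    (2248, 1), (2915, -1), (2976, 1), (3489, 1), (3936, -1)], [(428, -1), (904, 1), (1864, 1),
    (2472, 1), (2977, -1), (3937, 1)], [(344, 1), (456, -2), (1304, 1), (1452, 1), (2403, 1),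
    (2464, -1), (3048, 2), (3496, -1), (3561, 2)], [(273, 1), (940, -1), (1361, 1), (2465, 1),
    (2914, -1), (3497, 1)], [(3921, -2)], [(490, -2), (930, -1), (939, -1), (1890, -1), (2025,
    2), (2906, -1), (3025, -2), (3994, 1), (4012, 1)], [(3400, -2)], [], [(200, -2), (928, -1),
    (993, -1), (1441, 1), (1504, 1), (2904, -2), (3016, 1), (3417, -2), (3464, 1)], [(424, -1),
    (929, -1), (1889, -1), (2476, 1), (2952, 1), (3912, -1)], [(355, 1), (416, 1), (1000, -2),
    (1448, 1), (1513, 2), (2392, 1), (2504, -2), (3352, 1), (3500, -1)], [(417, 1), (866, 1),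
    (1449, 1), (2321, 1), (2988, 1), (3409, 1)]]

def xB16 : List (List (ℕ × ℤ)) :=
    [[(456, -2), (2985, -2), (3048, 2), (3496, -2), (3561, 2)], [(392, 1), (1936, -1), (2001, 1),
    (2184, -1), (2546, 1), (4081, -1)], [(968, -1), (1416, 1), (2976, -1), (3041, 1), (3489, -1),
    (3552, 1)], [(904, 1), (1480, -1), (2977, 1), (3040, -1), (3488, 1), (3553, -1)], [(920, -2),
    (985, -2), (1433, 2), (1496, 2), (1992, 2)], [(400, -1), (465, -1), (1928, 1), (2545, 1),
    (3720, -1), (4082, -1)], [(282, 1), (408, -1), (913, 2), (1424, -1), (2256, -1), (2467, -1),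
    (3490, 1)], [(912, -1), (1425, 2), (1488, 1), (1524, -1), (2978, -1), (3554, 1), (3568, 1)],
    [(937, 2), (1000, 2), (1448, -2), (1513, -2), (2504, 2)], [(136, -1), (498, -1), (2033, 1),
    (2440, 1), (3984, -1), (4049, -1)], [(928, -1), (993, -1), (1441, 1), (1504, 1), (3016, 1),
    (3464, -1)], [(929, -1), (992, -1), (1440, 1), (1505, 1), (2952, -1), (3528, 1)], [(2968,
    -2), (3033, 2), (3481, -2), (3544, 2), (4040, -2)], [(497, 1), (1672, 1), (2034, -1), (2448,
    1), (2513, -1), (3976, -1)], [(208, -1), (419, -1), (1442, -1), (2330, 1), (2456, -1), (2961,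
    2), (3472, 1)], [(930, 1), (1506, -1), (1520, -1), (2960, 1), (3473, 2), (3536, -1), (3572,
    1)]]

def xB17 : List (List (ℕ × ℤ)) :=
    [[], [(456, 1), (1800, 1), (2036, -1), (2464, 1), (2529, -1), (4080, -1)], [(904, -1), (1480,
    1), (2977, 1), (3040, -1), (3488, 1), (3553, -1)], [(968, 1), (1416, -1), (2976, -1), (3041,
    1), (3489, -1), (3552, 1)], [], [(264, 1), (500, 1), (1992, 1), (2544, -1), (4000, 1), (4065,
    1)], [(977, 1), (1425, 1), (1524, -1), (2978, -1), (3057, -1), (3554, 1)], [(913, 1), (1012,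
    1), (1489, 1), (3042, -1), (3490, 1), (3569, -1)], [], [(416, -1), (481, -1), (2032, -1),
    (2504, 1), (3848, -1), (4084, -1)], [(929, -1), (992, -1), (1440, 1), (1505, 1), (2952, 1),
    (3528, -1)], [(928, -1), (993, -1), (1441, 1), (1504, 1), (3016, -1), (3464, 1)], [], [(496,
    1), (864, 1), (1377, -1), (1952, 1), (2017, -1), (2548, -1), (3400, -1), (4040, -1)], [(930,
    1), (1009, -1), (1506, -1), (3025, 1), (3473, 1), (3572, 1)], [(994, 1), (1442, -1), (1521,
    -1), (2961, 1), (3060, -1), (3537, 1)]]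

def xB23 : List (List (ℕ × ℤ)) :=
    [[], [(419, -1), (426, -1), (1442, -1), (1451, -1), (2330, 1), (3418, -1)], [(418, 1), (427,
    1), (1443, 1), (1450, 1), (2394, -1), (3354, 1)], [(720, 2), (864, 1), (931, 1), (1891, 1),
    (1952, 1), (2968, -1), (3928, -1)], [(648, 2), (929, -2), (1379, -2), (1440, 2), (1745, 2),
    (1889, -2), (2328, -2), (2905, 2), (2952, 2)], [(867, -1), (928, -1), (1744, 2), (1888, -1),
    (1955, -1), (2904, 1), (3992, 1)], [(417, 1), (498, -1), (1954, -1), (2033, 1), (2321, 1),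
    (2393, -2), (3409, 2), (3930, 2), (4049, -1)], [(355, 2), (416, 2), (2027, 2), (2032, 2),
    (3034, 2), (3052, -2), (3352, 2), (4048, -2), (4084, 2)], [], [(282, 1), (1370, -1), (2467,
    -1), (2474, 1), (3490, 1), (3499, -1)], [(346, 1), (1306, -1), (2466, 1), (2475, -1), (3491,
    -1), (3498, 1)], [(920, 1), (1880, -1), (2768, -2), (2912, 1), (2979, -1), (3939, 1), (4000,
    -1)], [(280, -2), (857, -2), (904, 2), (2696, 2), (2977, -2), (3427, -2), (3488, -2), (3793,
    2), (3937, 2)], [(856, 1), (1944, -1), (2915, -1), (2976, 1), (3792, -2), (3936, -1), (4003,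
    1)], [(273, 1), (345, 2), (1361, 2), (1882, -2), (2001, 1), (2465, 1), (2546, 1), (4002, -1),
    (4081, -1)], [(986, 2), (1004, 2), (1304, 2), (2000, -2), (2036, 2), (2403, 2), (2464, -2),
    (4075, -2), (4080, 2)]]

def xB24 : List (List (ℕ × ℤ)) :=
    [[(273, 1), (2001, -1), (2465, -1), (2546, -1), (4002, 1), (4081, 1)], [(272, 1), (2000, 1),
    (2036, -1), (2464, 1), (4066, -1), (4080, -1)], [(785, 1), (904, 1), (1296, 1), (2696, 1),
    (2977, -1), (3488, -1)], [(784, 1), (1297, 1), (1416, -1), (2976, -1), (3208, -1), (3489,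
    -1)], [(465, -1), (1809, 1), (2466, 1), (2545, 1), (4001, -1), (4082, -1)], [(464, 1), (500,
    1), (1808, 1), (2530, 1), (2544, -1), (4000, 1)], [], [], [(417, -1), (498, 1), (1954, 1),
    (2033, -1), (2321, 1), (4049, 1)], [(416, 1), (2018, 1), (2032, 1), (2320, 1), (4048, -1),
    (4084, 1)], [(648, 1), (929, -1), (1440, 1), (2833, 1), (2952, 1), (3344, -1)], [(928, 1),
    (1160, -1), (1441, -1), (2832, -1), (3345, 1), (3464, -1)], [(418, 1), (497, -1), (1953, -1),
    (2034, 1), (2513, 1), (3857, 1)], [(720, -1), (931, -1), (1952, -1), (2842, -1), (2968, 1),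
    (3856, -1)], [], []]

def xB25 : List (List (ℕ × ℤ)) :=
    [[(281, 2), (337, 2), (1369, 2), (1416, 2), (2915, -2), (2976, 2), (3208, 2), (3489, 2),
    (3936, -2)], [(280, 1), (336, 2), (428, -1), (1368, 1), (2472, 1), (3427, 1), (3488, 1)],
    [(344, 1), (1304, 1), (1360, 2), (1452, 1), (2403, 1), (2464, -1), (3496, -1)], [(922, 1),
    (940, 1), (1882, 1), (2914, 1), (4002, -1), (4011, -1)], [], [(858, 1), (1946, 1), (1964,
    -1), (2978, -1), (2987, 1), (3938, 1)], [(464, -2), (500, -2), (2539, -2), (2544, 2), (2912,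
    2), (3555, -2), (3562, 2), (3939, 2), (4000, -2)], [(346, -2), (465, -1), (1809, -1), (1881,
    2), (2466, 1), (2545, 1), (2769, 2), (4001, -1), (4082, -1)], [(867, -2), (928, -2), (1160,
    2), (1441, 2), (1888, -2), (2329, -2), (2385, 2), (3417, -2), (3464, 2)], [(424, 1), (1379,
    -1), (1440, 1), (2328, -1), (2384, 2), (2476, -1), (3416, -1)], [(355, 1), (416, 1), (1448,
    1), (2392, 1), (3352, 1), (3408, -2), (3500, -1)], [(866, -1), (1954, -1), (1963, 1), (2970,
    1), (2988, -1), (3930, -1)], [], [(930, -1), (939, -1), (1890, -1), (2906, -1), (3994, 1),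
    (4012, 1)], [(491, 2), (496, 2), (864, 2), (1507, 2), (1514, 2), (1891, 2), (1952, 2), (2512,
    -2), (2548, -2)], [(418, 1), (497, -1), (721, 2), (1953, -1), (2034, 1), (2394, 2), (2513,
    1), (3857, -1), (3929, -2)]]

def xB26 : List (List (ℕ × ℤ)) :=
    [[(401, 2), (1433, 2), (1880, -2), (2768, -2), (2912, 2), (2979, -2), (3281, -2), (3939, 2),
    (4000, -2)], [(400, 1), (1809, 1), (1928, -1), (2466, -1), (3720, 1), (4001, 1)], [(976, -1),
    (1012, -1), (1424, 1), (3042, 1), (3056, -1), (3490, -1)], [(912, 1), (1872, 1), (1964, 1),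
    (2978, 1), (3938, -1), (4008, 1)], [(344, -2), (849, 2), (1304, -2), (1360, -2), (1452, -2),
    (1937, 2), (2403, -2), (2464, 2), (2985, -2)], [(848, 1), (940, -1), (1936, 1), (2914, -1),
    (2984, -1), (4002, 1)], [(337, 2), (968, 2), (2473, 2), (2976, 2), (3041, -2), (3208, 2),
    (3489, 2), (3552, -2), (4010, -2)], [(280, -2), (336, -2), (428, 2), (1368, -2), (2037, -2),
    (3058, 2), (3427, -2), (3488, -2), (4074, -2)], [(938, 2), (1514, -2), (1952, -2), (2017, 2),
    (2312, -2), (2512, 2), (2548, 2), (3573, 2), (4040, -2)], [(418, -1), (1232, 1), (1443, -1),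
    (2448, 1), (3354, -1), (3480, -1)], [(208, 1), (419, 1), (1442, 1), (2330, -1), (2456, 1),
    (3472, -1)], [(930, -1), (1890, -1), (1960, 1), (2960, -1), (3920, 1), (4012, 1)], [(416, 2),
    (481, 2), (1011, -2), (2504, 2), (3034, 2), (3482, -2), (3848, 2), (4048, -2), (4084, 2)],
    [(866, -1), (936, -1), (1954, -1), (2896, 1), (2988, -1), (3984, -1)], [(425, -2), (928, 2),
    (993, 2), (1160, -2), (1441, -2), (1504, -2), (1962, 2), (2385, -2), (3016, -2)], [(648, -2),
    (929, 2), (992, 2), (1440, -2), (1505, -2), (1745, -2), (2458, 2), (3528, -2), (3993, -2)]]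

def xB27 : List (List (ℕ × ℤ)) :=
    [[(465, 1), (1809, -1), (2466, 1), (2545, 1), (4001, -1), (4082, -1)], [(264, 1), (464, 2),
    (500, 1), (1992, -1), (2544, -1), (4000, 1), (4065, 1)], [(977, 1), (1425, -1), (1524, 1),
    (2978, 1), (3057, 1), (3554, -1)], [(913, -1), (1012, -1), (1489, 1), (3042, 1), (3490, -1),
    (3569, 1)], [(273, -1), (2001, 1), (2465, -1), (2546, -1), (4002, 1), (4081, 1)], [(456, -1),
    (1800, 1), (2000, 2), (2036, -1), (2464, 1), (2529, -1), (4080, -1)], [(336, -2), (428, 2),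
    (2472, -2), (2537, 2), (3040, 2), (3488, -2), (3553, 2), (3937, -2), (4074, -2)], [(281, -2),
    (474, -2), (1944, -2), (2009, 2), (2976, 2), (3041, -2), (3552, -2), (3792, -2), (4003, 2)],
    [(418, -1), (497, 1), (1953, 1), (2034, -1), (2513, 1), (3857, 1)], [(496, -1), (1952, -1),
    (2017, 1), (2312, -1), (2512, 2), (2548, 1), (4040, -1)], [(930, -1), (1009, 1), (1506, 1),
    (3025, 1), (3473, -1), (3572, -1)], [(994, -1), (1442, 1), (1521, 1), (2961, -1), (3060, 1),
    (3537, 1)], [(417, 1), (498, -1), (1954, -1), (2033, 1), (2321, 1), (4049, 1)], [(416, 1),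
    (481, 1), (2032, 1), (2504, 1), (3848, 1), (4048, -2), (4084, 1)], [(424, -2), (489, -2),
    (992, 2), (1440, -2), (1505, -2), (1889, -2), (2026, 2), (2384, -2), (2476, 2)], [(928, 2),
    (993, 2), (1504, -2), (1744, -2), (1955, 2), (2329, -2), (2522, 2), (3992, -2), (4057, -2)]]

def xB34 : List (List (ℕ × ℤ)) :=
    [[(784, -1), (856, -1), (1818, 1), (2915, 1), (3792, 1), (3936, 1)], [(280, 2), (785, -1),
    (904, -1), (1296, 1), (2696, -1), (2977, 1), (3488, 1)], [(272, 1), (1304, 2), (2000, -1),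
    (2036, 1), (2464, -1), (4066, 1), (4080, 1)], [(1305, 2)], [(282, 1), (1370, 1), (2467, 1),
    (2474, -1), (3490, -1), (3499, 1)], [(858, 2), (2531, 2), (2538, -2), (3554, -2), (3563, 2)],
    [(794, -1), (1808, 1), (1880, -1), (2768, -1), (2912, 1), (3939, 1)], [(921, 1), (1306, -1),
    (1809, 1), (2769, -1), (3491, 1), (4001, -1)], [(867, -1), (1744, 1), (1888, -1), (2832, -1),
    (2904, 1), (3866, 1)], [(354, -1), (424, -1), (1440, -1), (2328, 2), (2384, -1), (2476, 1),
    (3344, -1)], [(416, -1), (2018, -1), (2032, -1), (2320, 1), (3352, -2), (4048, 1), (4084,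
    -1)], [(3353, 2)], [(419, 1), (426, 1), (1442, 1), (1451, 1), (2330, 1), (3418, 1)], [(483,
    2), (490, 2), (1506, 2), (1515, 2), (2906, 2)], [(720, -1), (864, -1), (1891, -1), (2842,
    -1), (3856, 1), (3928, 1)], [(721, 1), (1443, 1), (1953, 1), (2969, -1), (3354, -1), (3857,
    -1)]]

def xB35 : List (List (ℕ × ℤ)) :=
    [[(273, 1), (345, 2), (940, -1), (1361, 1), (2465, 1), (2914, -1), (3497, 1)], [(344, 1),
    (1304, -1), (1452, -1), (2403, -1), (2464, 1), (3496, 1)], [(280, -1), (428, 1), (1368, 1),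
    (2472, -1), (3427, -1), (3488, -1)], [(856, 1), (1944, 1), (2915, 1), (2976, -1), (3936, 1),
    (4003, -1)], [(921, 1), (1432, -1), (1881, 2), (1928, -1), (2769, 1), (3280, 1), (3720, 1)],
    [(920, 1), (1880, 1), (2912, 1), (2979, -1), (3939, 1), (4000, -1)], [(858, -1), (1946, 1),
    (1964, -1), (2978, -1), (2987, 1), (3938, 1)], [(282, -1), (1370, -1), (2467, 1), (2474, -1),
    (3490, -1), (3499, 1)], [(417, -1), (866, -1), (1449, -1), (2321, -1), (2393, 2), (2988, -1),
    (3409, -1)], [(355, -1), (416, -1), (1448, -1), (2392, 1), (3352, -1), (3500, 1)], [(424,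
    -1), (1379, 1), (1440, -1), (2328, 1), (2476, 1), (3416, -1)], [(867, -1), (928, -1), (1888,
    -1), (1955, -1), (2904, -1), (3992, 1)], [(721, -1), (1232, 1), (1672, -1), (2969, -1),
    (3480, -1), (3929, 2), (3976, 1)], [(864, -1), (931, -1), (1891, -1), (1952, -1), (2968, 1),
    (3928, -1)], [(930, 1), (939, 1), (1890, 1), (2906, -1), (3994, -1), (4012, -1)], [(419, 1),
    (426, 1), (1442, 1), (1451, 1), (2330, -1), (3418, -1)]]

def xB36 : List (List (ℕ × ℤ)) :=
    [[(912, -1), (1488, 1), (1524, -1), (1946, 2), (2978, -1), (3554, 1), (3568, 1)], [(408, 1),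
    (1370, 1), (1424, 1), (2256, 1), (2474, -1), (3499, 1)], [(346, -1), (400, 1), (1432, 1),
    (2475, 1), (3280, -1), (3498, -1)], [(920, 1), (1880, 1), (2912, -1), (2979, 1), (3939, -1),
    (4000, 1)], [(857, 2), (904, -2), (1368, -2), (1864, -2), (1945, 2)], [(856, 1), (1944, 1),
    (2915, -1), (2976, 1), (3936, -1), (4003, 1)], [(345, 2), (392, -1), (922, -1), (1361, 1),
    (1882, -1), (1936, 1), (2184, 1), (3497, 1), (4011, -1)], [(344, -2), (3048, -2), (3059, 2),
    (4075, -2), (4080, 2)], [(930, -1), (1506, 1), (1520, 1), (2960, -1), (3536, 1), (3572, -1),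
    (3994, 2)], [(208, 1), (426, 1), (1451, 1), (2456, 1), (3418, 1), (3472, -1)], [(427, -1),
    (1002, -1), (1232, 1), (2034, -1), (2394, 1), (2448, 1), (3061, 1), (3480, -1)], [(864, -1),
    (931, -1), (1891, -1), (1952, -1), (2968, -1), (3928, 1)], [(2905, -2), (2952, -2), (3416,
    -2), (3912, 2), (3993, 2)], [(867, -1), (928, -1), (1888, -1), (1955, -1), (2904, 1), (3992,
    -1)], [(136, 1), (1449, 1), (1963, 1), (2393, -2), (2440, -1), (2970, -1), (3409, 1), (3930,
    1), (3984, 1)], [(1000, 2), (1011, 2), (2027, 2), (2032, 2), (2392, -2)]]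

def xB37 : List (List (ℕ × ℤ)) :=
    [[(408, -1), (976, -1), (2010, 1), (2256, -1), (3056, -1), (4083, -1)], [(501, 1), (858, 1),
    (1524, 1), (1946, -1), (2538, -1), (2978, 1), (2987, -1), (3554, -1), (3563, 2)], [(500, -1),
    (920, -1), (1496, 1), (2544, 1), (2979, 1), (3555, -1)], [(921, -1), (1432, 1), (1497, 2),
    (1928, 1), (2769, -1), (3280, -1), (3720, -1)], [(856, 1), (968, -2), (1944, -1), (2009, 2),
    (2248, -2), (2915, -1), (2976, 1), (3936, -1), (4003, 1)], [(2008, 2)], [(344, -2), (456, 1),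
    (1800, -1), (2036, 1), (2464, -1), (2529, 1), (3048, -2), (4075, -2), (4080, 1)], [(345, 2),
    (3497, 2), (3571, -2), (4011, -2), (4081, 2)], [(419, -1), (994, -1), (2035, -1), (2330, 1),
    (3060, 1), (4058, 1)], [(490, 1), (930, -1), (939, -1), (1506, 1), (1515, 2), (2549, -1),
    (2906, 1), (3572, -1), (3994, 1)], [(496, 1), (931, -1), (1507, 1), (2548, -1), (2968, 1),
    (3544, -1)], [(721, -1), (1443, 1), (1953, 1), (2969, -1), (3354, 1), (3545, 2), (3857, 1)],
    [(200, 2), (867, -1), (928, -1), (1888, -1), (1955, -1), (2904, 1), (3016, -2), (3992, 1),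
    (4057, 2)], [(4056, -2)], [(355, 1), (416, 1), (1000, 1), (2027, 2), (2032, 1), (2392, -1),
    (3052, -1), (3352, 1), (4084, 1)], [(1449, 2), (1523, -2), (1963, 2), (2033, -2), (2393,
    -2)]]

def xB45 : List (List (ℕ × ℤ)) :=
    [[(930, -1), (939, -1), (1890, 1), (2906, -1), (3994, 1), (4012, 1)], [(994, 2), (1003, 2),
    (3418, 2), (4058, -2), (4076, -2)], [(865, 2)], [(482, -1), (496, 1), (864, 2), (1952, 1),
    (2512, -1), (2548, -1), (3856, -1)], [(354, 1), (1379, -1), (2328, -1), (2384, 1), (3344, 1),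
    (3416, -1)], [(928, 1), (1160, -1), (1441, -1), (1888, 2), (2832, 1), (3345, 1), (3464, -1)],
    [(417, 1), (866, -1), (1449, 1), (2321, -1), (2988, 1), (3409, -1)], [(355, 1), (1378, -1),
    (2320, -1), (2392, 1), (3352, 1), (3408, -1)], [(858, -1), (1946, -1), (1964, 1), (2978, 1),
    (2987, -1), (3938, 1)], [(1370, -2), (2010, -2), (2028, 2), (3042, 2), (3051, -2)], [(2913,
    2)], [(464, 1), (500, 1), (1808, -1), (2530, 1), (2544, -1), (2912, -2), (4000, 1)], [(280,
    1), (336, 1), (1296, 1), (1368, 1), (2402, 1), (3427, 1)], [(784, 1), (1297, -1), (1416, 1),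
    (2976, 1), (3208, 1), (3489, 1), (3936, -2)], [(273, 1), (940, 1), (1361, 1), (2465, -1),
    (2914, -1), (3497, -1)], [(272, -1), (344, -1), (1304, -1), (1360, -1), (2403, -1), (3426,
    -1)]]

def xB46 : List (List (ℕ × ℤ)) :=
    [[(136, -1), (417, 2), (498, -1), (2033, 1), (2440, 1), (3984, -1), (4049, -1)], [(416, 1),
    (2018, -1), (2032, -1), (2320, 1), (4048, 1), (4084, -1)], [(354, -1), (424, -1), (1440, 1),
    (2384, -1), (2476, 1), (3344, -1)], [(928, 1), (1160, 1), (1441, 1), (2832, -1), (3345, -1),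
    (3464, 1)], [(497, 1), (1672, 1), (1953, 2), (2034, -1), (2448, 1), (2513, -1), (3976, -1)],
    [(720, -1), (931, -1), (1952, 1), (2842, -1), (2968, 1), (3856, 1)], [(930, -1), (1890, 1),
    (1960, -1), (2960, 1), (3920, -1), (4012, -1)], [(208, 1), (419, 1), (1442, -1), (2330, -1),
    (2456, 1), (3472, -1)], [(392, 1), (1936, -1), (2001, 1), (2184, -1), (2465, 2), (2546, 1),
    (4081, -1)], [(272, 1), (1360, 1), (1452, 1), (2464, 1), (3426, 1), (3496, -1)], [(785, -1),
    (904, -1), (1296, 1), (2696, -1), (2977, 1), (3488, -1)], [(784, 1), (1297, -1), (1416, 1),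
    (2976, -1), (3208, 1), (3489, 1)], [(400, 1), (465, 1), (1928, -1), (2545, -1), (3720, 1),
    (4001, 2), (4082, 1)], [(464, 1), (500, 1), (1808, -1), (2530, 1), (2544, -1), (4000, -1)],
    [(912, 1), (1872, 1), (1964, 1), (2978, -1), (3938, -1), (4008, 1)], [(282, 1), (408, -1),
    (1424, -1), (2256, -1), (2467, -1), (3490, -1)]]

def xB47 : List (List (ℕ × ℤ)) :=
    [[(481, 1), (2018, 1), (2320, -1), (2504, 1), (3848, 1), (4048, -1)], [(866, 2), (1001, -2),
    (2321, 2), (3409, 2), (3564, 2)], [(928, -1), (1160, 1), (1441, 1), (1504, 2), (2832, -1),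
    (3345, -1), (3464, 1)], [(354, -1), (424, -1), (992, 2), (1440, -1), (2384, -1), (2476, 1),
    (3344, -1)], [(482, 1), (2017, 1), (2312, -1), (2512, 1), (3856, 1), (4040, -1)], [(721, 2),
    (995, -2), (3354, -2), (3545, -2), (3857, -2)], [(994, -1), (1442, -1), (1521, -1), (2961,
    1), (3060, -1), (3537, -1)], [(930, -1), (1009, 1), (1506, -1), (3025, 1), (3473, -1), (3572,
    -1)], [(272, 1), (456, 1), (1800, -1), (2000, -1), (2529, 1), (4066, 1)], [(273, -2), (1361,
    -2), (1516, 2), (2914, 2), (3049, 2)], [(784, 1), (1297, -1), (1416, 1), (2976, 1), (3208,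
    1), (3489, 1), (3552, -2)], [(336, 1), (428, -1), (1296, 1), (2402, 1), (2472, 1), (3040,
    -2), (3488, 1)], [(264, 1), (464, 1), (1808, -1), (1992, -1), (2530, 1), (4065, 1)], [(1306,
    2), (1497, -2), (1809, -2), (2769, 2), (3043, 2)], [(913, -1), (1012, -1), (1489, 1), (3042,
    -1), (3490, -1), (3569, 1)], [(977, -1), (1425, 1), (1524, -1), (2978, -1), (3057, -1),
    (3554, -1)]]

def xB56 : List (List (ℕ × ℤ)) :=
    [[(200, 2), (425, 2), (2904, 2), (3417, 2), (3464, -2)], [(424, 1), (1379, 1), (1440, -1),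
    (2328, 1), (2476, 1), (3416, 1)], [(355, -1), (416, -1), (1448, 1), (2392, -1), (3352, -1),
    (3500, 1)], [(936, 1), (1963, -1), (2896, -1), (2970, -1), (3930, 1), (3984, 1)], [(208, 1),
    (419, 1), (426, 2), (1442, 1), (2330, -1), (2456, 1), (3472, -1)], [(939, -1), (1960, 1),
    (2906, -1), (2960, -1), (3920, 1), (3994, 1)], [(491, 2), (496, 2), (3544, -2), (3573, 2),
    (3928, 2)], [(427, 1), (721, 1), (1450, -1), (1672, 1), (2394, 1), (2448, 1), (2969, 1),
    (3929, -2), (3976, -1)], [(856, 2), (1369, -2), (1416, -2), (2248, -2), (2473, 2)], [(280,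
    -1), (428, 1), (1368, -1), (2472, 1), (3427, -1), (3488, -1)], [(344, -1), (1304, -1), (1452,
    -1), (2403, -1), (2464, 1), (3496, -1)], [(848, 1), (922, -1), (1882, -1), (1936, 1), (2984,
    -1), (4011, 1)], [(282, 1), (408, -1), (1424, -1), (2256, -1), (2467, -1), (2474, 2), (3490,
    1)], [(858, 1), (912, -1), (1872, -1), (1946, 1), (2987, 1), (4008, -1)], [(1496, 2), (1525,
    2), (1880, 2), (2539, -2), (2544, 2)], [(400, 1), (465, 1), (921, 2), (1881, 2), (1928, -1),
    (2475, -2), (2545, -1), (3720, 1), (4082, 1)]]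

def xB57 : List (List (ℕ × ℤ)) :=
    [[(424, 1), (489, 2), (992, -1), (1440, 1), (1505, 1), (1889, 1), (2476, -1), (3528, -1),
    (3912, 1)], [(488, 2)], [(136, -1), (936, 1), (1001, 2), (1449, -1), (2440, 1), (2896, -1),
    (3409, -1)], [(1000, 1), (1448, -1), (2032, 1), (3052, -1), (3500, 1), (4084, 1)], [(490, 1),
    (1520, -1), (1960, 1), (2549, -1), (3536, -1), (3920, 1)], [(994, -1), (1003, -2), (1442, 1),
    (1521, 1), (2961, -1), (3060, 1), (3418, -2), (3537, 1), (4058, 2)], [(721, 2), (1002, -2),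
    (2394, 2), (2513, 2), (3929, -2)], [(491, 2), (496, 1), (864, 1), (1507, 1), (1891, 1),
    (1952, 1), (2548, -1), (3544, -1), (3928, 1)], [(280, -1), (428, 1), (1368, -1), (1480, -2),
    (1864, -2), (2472, -1), (2537, 2), (3427, -1), (3488, -1)], [(2536, 2)], [(392, 1), (848, 1),
    (1361, -1), (2184, -1), (2984, -1), (3049, 2), (3497, -1)], [(1004, 1), (1452, -1), (2036,
    1), (3048, -1), (3496, 1), (4080, 1)], [(501, -1), (1524, -1), (1964, 1), (2538, 1), (3554,
    1), (3938, -1)], [(913, 1), (1012, 1), (1370, 2), (1489, -1), (2010, 2), (3042, -1), (3051,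
    2), (3490, 1), (3569, -1)], [(921, 2), (1013, -2), (1881, 2), (2475, -2), (2545, -2)], [(500,
    -1), (1496, 1), (1880, 1), (2539, -2), (2544, 1), (2912, 1), (3555, -1), (3939, 1), (4000,
    -1)]]

def xB67 : List (List (ℕ × ℤ)) :=
    [[(497, 1), (1672, -1), (2034, 1), (2448, -1), (2513, 1), (3976, 1)], [(496, 1), (1952, -1),
    (2017, 1), (2312, -1), (2548, 1), (4040, -1)], [(1009, 1), (1520, 1), (2960, -1), (3025, 1),
    (3473, -1), (3536, 1)], [(1008, 1), (1521, 1), (2961, -1), (3024, 1), (3472, -1), (3537, 1)],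
    [(136, 1), (498, 1), (2033, 1), (2440, -1), (3984, 1), (4049, 1)], [(416, -1), (481, -1),
    (2032, 1), (2504, -1), (3848, -1), (4084, -1)], [(424, 2), (489, 2), (3528, -2), (3912, 2),
    (4085, 2)], [(200, 2), (499, 2), (3016, -2), (3992, 2), (4057, 2)], [(400, 1), (465, 1),
    (1928, -1), (2545, 1), (3720, 1), (4082, 1)], [(264, 1), (500, 1), (1992, -1), (2544, 1),
    (4000, 1), (4065, 1)], [(912, 1), (977, 1), (1425, -1), (1488, -1), (3057, 1), (3568, -1)],
    [(913, -1), (976, -1), (1424, 1), (1489, 1), (3056, -1), (3569, 1)], [(392, 1), (1936, -1),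
    (2001, 1), (2184, -1), (2546, 1), (4081, 1)], [(456, 1), (1800, -1), (2036, 1), (2464, -1),
    (2529, 1), (4080, -1)], [(1480, 2), (1864, 2), (2037, -2), (2472, 2), (2537, -2)], [(968, 2),
    (1944, 2), (2009, -2), (2248, 2), (2547, -2)]]

def xlB : List (List (List (ℕ × ℤ))) :=
    [[], xB01, xB02, xB03, xB04, xB05, xB06, xB07, [], [], xB12, xB13, xB14, xB15, xB16, xB17,
    [], [], [], xB23, xB24, xB25, xB26, xB27, [], [], [], [], xB34, xB35, xB36, xB37, [], [], [],
    [], [], xB45, xB46, xB47, [], [], [], [], [], [], xB56, xB57, [], [], [], [], [], [], [],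
    xB67, [], [], [], [], [], [], [], []]

def zlB : List (List (List (ℕ × ℤ))) :=
    [[], [[(3784, 1)], [(8136, 1)], [(8072, 1)], [(7496, -1)], [(7880, -1)], [(3464, 1)], [(7816,
    -1)], [(3400, 1)]], [[(6106, -1), (7120, 1)], [(2768, -1), (5082, 1)], [(200, 1), (2256,
    -1)], [(2184, -1), (3784, 1)], [(2010, -1), (3024, 1)], [(849, 1), (5256, -1)], [(3536, 1),
    (4584, -1)], [(6280, -1), (7880, -1)]], [[(200, -1)], [(4440, -1)], [(7640, 1)], [(208, -1)],
    [(4296, -1)], [(7376, 1)], [(3544, 1)], [(3416, 1)]], [[(264, -1)], [(8160, 1)], [(8096, 1)],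
    [(2312, -1)], [(7960, 1)], [(352, 1)], [(3552, 1)], [(4368, -1)]], [[(6568, 1)], [(8168, 1)],
    [(2392, 1)], [(2376, -1)], [(8024, 1)], [(4072, 1)], [(6488, -1)], [(6472, -1)]], [[(6131,
    1), (7152, 1)], [(1416, -1), (5033, 1)], [(1928, -1), (2969, 1)], [(1525, 1), (5104, 1)],
    [(4488, -1), (7496, -1)], [(4080, 1), (6616, -1)], [(936, 1), (7157, -1)], [(3496, -1),
    (4072, 1)]], [[(6640, -1)], [(4584, 1)], [(2520, 1)], [(4592, -1)], [(2544, -1)], [(488,
    -1)], [(6616, -1)], [(4560, -1)]], [], [], [[(7121, 1)], [(2769, -1)], [(4945, -1)], [(5073,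
    1)], [(785, 1)], [(6865, 1)], [(849, -1)], [(2833, -1)]], [[(4889, 1)], [(3281, 1)], [(7641,
    1)], [(7513, -1)], [(4808, 1)], [(7377, 1)], [(3545, 1)], [(985, -1)]], [[(3865, -1)],
    [(3345, 1)], [(7649, 1)], [(7521, -1)], [(7961, 1)], [(3489, 1)], [(4001, 1)], [(3425, 1)]],
    [[(7145, 1)], [(2905, 1)], [(3921, 1)], [(2888, 1)], [(3049, 1)], [(4073, 1)], [(8017, 1)],
    [(6984, -1)]], [[(7153, 1)], [(2969, 1)], [(5033, 1)], [(2952, 1)], [(5000, 1)], [(7065,
    -1)], [(937, 1)], [(2977, 1)]], [[(6131, 1), (6641, -1)], [(4585, 1), (6634, -1)], [(1480,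
    1), (4584, 1)], [(2009, 1), (5603, -1)], [(1513, 1), (2024, -1)], [(6088, -1), (6616, 1)],
    [(1505, -1), (4588, 1)], [(1514, 1), (4561, -1)]], [], [], [], [[(720, 1)], [(1233, 1)],
    [(4954, -1)], [(5082, 1)], [(794, 1)], [(5329, 1)], [(1306, 1)], [(986, -1)]], [[(1873, -1),
    (5474, 1)], [(849, 1), (1297, 1)], [(1809, 1), (6865, 1)], [(2321, 1), (3865, -1)], [(3042,
    1), (6106, 1)], [(5082, 1), (6938, -1)], [(4377, 1), (6426, -1)], [(6417, 1), (7961, 1)]],
    [[(7146, 1)], [(5986, -1)], [(1873, 1)], [(1882, 1)], [(3050, 1)], [(1890, 1)], [(5969, 1)],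
    [(2914, 1)]], [[(7154, 1)], [(6050, -1)], [(5034, 1)], [(7074, -1)], [(5008, 1)], [(1954,
    1)], [(938, 1)], [(1010, -1)]], [[(5610, -1)], [(1489, 1)], [(5602, 1)], [(2010, 1)], [(1514,
    1)], [(6096, -1)], [(1506, -1)], [(6106, -1)]], [], [], [], [], [[(281, 1)], [(4451, -1)],
    [(7651, 1)], [(4515, 1)], [(4377, 1)], [(7450, -1)], [(3555, 1)], [(3427, 1)]], [[(1873, -1),
    (2394, 1)], [(5107, -1), (7595, 1)], [(3061, 1), (8107, 1)], [(2393, 1), (8105, -1)], [(1961,
    1), (2475, 1)], [(5082, -1), (7514, -1)], [(4011, 1), (7157, -1)], [(1003, -1), (5592, -1)]],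
    [[(5027, -1)], [(1433, 1)], [(5035, 1)], [(5107, 1)], [(1451, 1)], [(5529, 1)], [(939, 1)],
    [(1011, -1)]], [[(5611, -1)], [(4587, 1)], [(1496, 1)], [(4595, -1)], [(1515, 1)], [(5593,
    1)], [(1507, -1)], [(499, -1)]], [], [], [], [], [], [[(3939, 1)], [(8172, 1)], [(2403, -1)],
    [(2401, 1)], [(6498, 1)], [(4076, 1)], [(6499, 1)], [(6497, 1)]], [[(3555, -1), (4003, 1)],
    [(2531, -1), (8180, 1)], [(5036, 1), (7157, -1)], [(5108, 1), (5621, -1)], [(7651, 1), (8099,
    -1)], [(4084, 1), (6627, 1)], [(940, 1), (3061, -1)], [(1012, -1), (1525, -1)]], [[(6644,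
    -1)], [(4588, 1)], [(2531, -1)], [(4596, -1)], [(4577, 1)], [(492, -1)], [(6627, 1)], [(500,
    -1)]], [], [], [], [], [], [], [[(7157, 1)], [(6060, 1)], [(1961, 1)], [(1963, -1)], [(3061,
    1)], [(6056, -1)], [(6057, 1)], [(2988, -1)]], [[(2538, 1)], [(2024, 1)], [(2025, 1)],
    [(2027, -1)], [(6634, 1)], [(6120, -1)], [(6121, 1)], [(6123, 1)]], [], [], [], [], [], [],
    [], [[(5621, 1)], [(1521, 1)], [(5620, -1)], [(2035, -1)], [(1525, -1)], [(6128, -1)],
    [(5616, -1)], [(6131, 1)]], [], [], [], [], [], [], [], []]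

theorem k1B : K1 (psiG clB lamB) :=
  k1_of_cert clB lamB 2 (by decide) (fun a j => ylB.getD (8 * a.val + j.val) [])
    (fun a a' s => (xlB.getD (8 * a.val + a'.val) []).getD s.val []) (by decide +kernel)

theorem k2B : K2 (psiG clB lamB) :=
  k2_of_cert clB lamB
    (fun a a' j => (zlB.getD (8 * a.val + a'.val) []).getD j.val []) (by decide +kernel)

end Vale.Agent.P256
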